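import Mathlib

set_option linter.unusedSectionVars false

/-!
# A bracket for spaces with almost bilinear norm square
-/

namespace Vale.Agent.P084.Near

variable {X : Type*} [NormedAddCommGroup X] [NormedSpace ℝ X]

/-- The polarised norm square. -/
noncomputable def br (u v : X) : ℝ := (‖u + v‖ ^ 2 - ‖u - v‖ ^ 2) / 4

/-- `X` is `η`-close to an inner product space on each of its planes. -/
structure IsNear (X : Type*) [NormedAddCommGroup X] [NormedSpace ℝ X] (η : ℝ) : Prop where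
  par : ∀ u v : X, |‖u + v‖ ^ 2 + ‖u - v‖ ^ 2 - 2 * ‖u‖ ^ 2 - 2 * ‖v‖ ^ 2|
    ≤ η * (‖u‖ ^ 2 + ‖v‖ ^ 2)
  lin : ∀ (r : ℝ) (u v : X),
    |br (r • u) v - r * br u v| ≤ η * (1 + r ^ 2) * (‖u‖ ^ 2 + ‖v‖ ^ 2)
  plane : ∀ e f : X, ‖e‖ = 1 → ‖f‖ = 1 → ‖e + f‖ = ‖e - f‖ → ∀ a b : ℝ,
    |‖a • e + b • f‖ ^ 2 - (a ^ 2 + b ^ 2)| ≤ η * (a ^ 2 + b ^ 2)

lemma br_comm (u v : X) : br u v = br v u := by
  rw [br, br, add_comm u v, norm_sub_rev u v]

lemma br_self (u : X) : br u u = ‖u‖ ^ 2 := by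
  have : u + u = (2 : ℝ) • u := by module
  rw [br, this, sub_self, norm_smul, norm_zero, Real.norm_ofNat]
  ring

lemma br_neg_left (u v : X) : br (-u) v = -br u v := by
  rw [br, br, show -u + v = -(u - v) by abel, show -u - v = -(u + v) by abel, norm_neg, norm_neg]
  ring

lemma br_neg_right (u v : X) : br u (-v) = -br u v := by
  rw [br_comm, br_neg_left, br_comm]

lemma br_zero_right (u : X) : br u 0 = 0 := by simp [br]

lemma abs_br_le (u v : X) : |br u v| ≤ 2 * (‖u‖ * ‖v‖) := by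
  have h1 : |‖u + v‖ - ‖u - v‖| ≤ 2 * ‖v‖ := by
    refine (abs_norm_sub_norm_le _ _).trans ?_
    rw [show u + v - (u - v) = (2 : ℝ) • v by module, norm_smul, Real.norm_ofNat]
  have h2 : |‖u + v‖ - ‖u - v‖| ≤ 2 * ‖u‖ := by
    rw [norm_sub_rev u v]
    refine (abs_norm_sub_norm_le _ _).trans ?_
    rw [show u + v - (v - u) = (2 : ℝ) • u by module, norm_smul, Real.norm_ofNat]
  have h3 : ‖u + v‖ + ‖u - v‖ ≤ 2 * ‖u‖ + 2 * ‖v‖ := by
    linarith [norm_add_le u v, norm_sub_le u v]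
  rw [br, sq_sub_sq, abs_div, abs_mul, abs_of_nonneg (a := ‖u + v‖ + ‖u - v‖) (by positivity),
    abs_of_pos (by norm_num : (0:ℝ) < 4), div_le_iff₀ (by norm_num : (0:ℝ) < 4)]
  rcases le_total ‖u‖ ‖v‖ with h | h
  · nlinarith [mul_le_mul h3 h2 (abs_nonneg _) (by positivity),
      mul_le_mul_of_nonneg_left h (norm_nonneg u)]
  · nlinarith [mul_le_mul h3 h1 (abs_nonneg _) (by positivity),
      mul_le_mul_of_nonneg_left h (norm_nonneg v)]

lemma br_unit_self {D : X} (hD : D ≠ 0) : br (‖D‖⁻¹ • D) D = ‖D‖ := by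
  have hd : 0 < ‖D‖ := norm_pos_iff.2 hD
  rw [br, show ‖D‖⁻¹ • D + D = (‖D‖⁻¹ + 1) • D by module,
    show ‖D‖⁻¹ • D - D = (‖D‖⁻¹ - 1) • D by module, norm_smul, norm_smul,
    Real.norm_eq_abs, Real.norm_eq_abs, mul_pow, mul_pow, sq_abs, sq_abs]
  field_simp
  ring

/-- The second difference of the norm square. -/
noncomputable def sd (a b : X) : ℝ := ‖a + b‖ ^ 2 + ‖a - b‖ ^ 2 - 2 * ‖a‖ ^ 2

lemma expand_exact (a b : X) : ‖a + b‖ ^ 2 - ‖a‖ ^ 2 - 2 * br a b = sd a b / 2 := by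
  rw [br, sd]; ring

lemma sd_nonneg (a b : X) : 0 ≤ sd a b := by
  have h : 2 * ‖a‖ ≤ ‖a + b‖ + ‖a - b‖ := by
    have := norm_add_le (a + b) (a - b)
    rwa [show a + b + (a - b) = (2 : ℝ) • a by module, norm_smul, Real.norm_ofNat] at this
  unfold sd
  nlinarith [sq_nonneg (‖a + b‖ - ‖a - b‖), norm_nonneg (a + b), norm_nonneg (a - b),
    norm_nonneg a, mul_le_mul h h (by positivity) (by positivity)]

/-- Convexity of the norm square along a line. -/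
lemma sq_segment (a b : X) {t : ℝ} (h0 : 0 ≤ t) (h1 : t ≤ 1) :
    ‖a + t • b‖ ^ 2 ≤ (1 - t) * ‖a‖ ^ 2 + t * ‖a + b‖ ^ 2 := by
  have h : ‖a + t • b‖ ≤ (1 - t) * ‖a‖ + t * ‖a + b‖ := by
    calc ‖a + t • b‖ = ‖(1 - t) • a + t • (a + b)‖ := by congr 1; module
      _ ≤ _ := by
        refine (norm_add_le _ _).trans_eq ?_
        rw [norm_smul, norm_smul, Real.norm_of_nonneg h0, Real.norm_of_nonneg (sub_nonneg.2 h1)]
  calc ‖a + t • b‖ ^ 2 ≤ ((1 - t) * ‖a‖ + t * ‖a + b‖) ^ 2 :=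
        pow_le_pow_left₀ (norm_nonneg _) h 2
    _ ≤ _ := by
      nlinarith [mul_nonneg (mul_nonneg h0 (sub_nonneg.2 h1)) (sq_nonneg (‖a‖ - ‖a + b‖))]

lemma sd_smul_le (a b : X) {t : ℝ} (h0 : 0 ≤ t) (h1 : t ≤ 1) :
    sd a (t • b) ≤ t * sd a b := by
  have e1 := sq_segment a b h0 h1
  have e2 := sq_segment a (-b) h0 h1
  rw [smul_neg, ← sub_eq_add_neg, ← sub_eq_add_neg] at e2
  unfold sd
  linarith

lemma br_smul_right_le (a b : X) {t : ℝ} (h0 : 0 ≤ t) (h1 : t ≤ 1) :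
    |br a (t • b) - t * br a b| ≤ t * sd a b / 4 := by
  have e1 := sq_segment a b h0 h1
  have e2 := sq_segment a (-b) h0 h1
  rw [smul_neg, ← sub_eq_add_neg, ← sub_eq_add_neg] at e2
  have e3 := sd_nonneg a (t • b)
  unfold sd at *
  unfold br
  rw [abs_le]
  constructor <;> linarith

variable {η : ℝ}

lemma br_big_add (h : IsNear X η) (hη : 0 ≤ η) (a a' c : X) :
    |br (a + a') c - br a c - br a' c| ≤ 20 * η * (‖a‖ ^ 2 + ‖a'‖ ^ 2 + ‖c‖ ^ 2) := by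
  have p1 := h.par (a + c) (a' + c)
  have p2 := h.par (a - c) (a' - c)
  rw [show a + c + (a' + c) = a + a' + (2 : ℝ) • c by module,
    show a + c - (a' + c) = a - a' by abel] at p1
  rw [show a - c + (a' - c) = a + a' - (2 : ℝ) • c by module,
    show a - c - (a' - c) = a - a' by abel] at p2
  have l := h.lin 2 c (a + a')
  rw [br_comm ((2 : ℝ) • c), br_comm c] at l
  have sq2 : ∀ x y : X, ‖x + y‖ ^ 2 ≤ 2 * (‖x‖ ^ 2 + ‖y‖ ^ 2) := fun x y => by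
    nlinarith [pow_le_pow_left₀ (norm_nonneg _) (norm_add_le x y) 2, sq_nonneg (‖x‖ - ‖y‖)]
  have s1 := sq2 a c
  have s2 := sq2 a' c
  have s3 := sq2 a (-c)
  have s4 := sq2 a' (-c)
  have s5 := sq2 a a'
  rw [norm_neg, ← sub_eq_add_neg] at s3 s4
  have m1 := mul_le_mul_of_nonneg_left s1 hη
  have m2 := mul_le_mul_of_nonneg_left s2 hη
  have m3 := mul_le_mul_of_nonneg_left s3 hη
  have m4 := mul_le_mul_of_nonneg_left s4 hη
  have m5 := mul_le_mul_of_nonneg_left s5 hη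
  have := mul_nonneg hη (sq_nonneg ‖a‖)
  have := mul_nonneg hη (sq_nonneg ‖a'‖)
  have := mul_nonneg hη (sq_nonneg ‖c‖)
  rw [abs_le] at p1 p2 l ⊢
  unfold br at *
  constructor <;> linarith

lemma br_big_add_right (h : IsNear X η) (hη : 0 ≤ η) (a b b' : X) :
    |br a (b + b') - br a b - br a b'| ≤ 20 * η * (‖a‖ ^ 2 + ‖b‖ ^ 2 + ‖b'‖ ^ 2) := by
  rw [br_comm a, br_comm a b, br_comm a b']
  exact (br_big_add h hη b b' a).trans_eq (by ring)

/-! ### Estimates which are linear in the small argument -/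

variable {τ : ℝ}

/-- The scaling factor attached to the size `s` of a small argument. -/
noncomputable def tf (τ s : ℝ) : ℝ := max 1 (τ / s)

lemma one_le_tf (τ s : ℝ) : 1 ≤ tf τ s := le_max_left _ _

lemma tf_facts (hτ : 0 < τ) {s : ℝ} (hs : 0 < s) :
    τ ^ 2 / tf τ s ≤ τ * s ∧ tf τ s * s = max s τ := by
  have h1 : tf τ s * s = max s τ := by
    rw [tf, max_mul_of_nonneg _ _ hs.le, one_mul, div_mul_cancel₀ _ hs.ne']
  refine ⟨?_, h1⟩
  rw [div_le_iff₀ (lt_of_lt_of_le one_pos (one_le_tf τ s))]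
  nlinarith [le_max_right s τ, mul_le_mul_of_nonneg_left (le_max_right s τ) hτ.le]

lemma sd_tf (h : IsNear X (τ ^ 2)) (hτ : 0 < τ) (hτ1 : τ ≤ 1) {a b : X} {s : ℝ}
    (ha : ‖a‖ ≤ 32) (hs : 0 < s) (hs4 : s ≤ 4) (hb : ‖b‖ ≤ s) :
    sd a (tf τ s • b) / tf τ s ≤ 1100 * τ * s + 2 * s ^ 2 ∧ ‖tf τ s • b‖ ≤ 4 ∧
      (1 < tf τ s → sd a (tf τ s • b) / tf τ s ≤ 1100 * τ * s) := by
  obtain ⟨hq, hTs⟩ := tf_facts hτ hs
  have hT : 0 < tf τ s := lt_of_lt_of_le one_pos (one_le_tf τ s)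
  set T := tf τ s with hTdef
  have hb' : ‖T • b‖ ≤ T * s := by
    rw [norm_smul, Real.norm_of_nonneg hT.le]
    exact mul_le_mul_of_nonneg_left hb hT.le
  have hb4 : ‖T • b‖ ≤ 4 := hb'.trans (hTs ▸ max_le hs4 (by linarith))
  have hp := h.par a (T • b)
  rw [abs_le] at hp
  have hsd : sd a (T • b) ≤ τ ^ 2 * 1040 + 2 * (T * s) ^ 2 := by
    have h2 : ‖T • b‖ ^ 2 ≤ (T * s) ^ 2 := pow_le_pow_left₀ (norm_nonneg _) hb' 2
    have h3 : ‖a‖ ^ 2 + ‖T • b‖ ^ 2 ≤ 1040 := by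
      nlinarith [norm_nonneg a, norm_nonneg (T • b)]
    unfold sd
    nlinarith [mul_le_mul_of_nonneg_left h3 (sq_nonneg τ)]
  have key : sd a (T • b) / T ≤ 1040 * (τ * s) + 2 * (T * s) * s := by
    rw [div_le_iff₀ hT]
    rw [div_le_iff₀ hT] at hq
    nlinarith [hsd]
  have gt_case : 1 < T → sd a (T • b) / T ≤ 1100 * τ * s := by
    intro hgt
    have : T * s = τ := by
      rw [hTdef, tf] at hgt ⊢
      rcases max_cases (1:ℝ) (τ / s) with ⟨hm, -⟩ | ⟨hm, -⟩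
      · rw [hm] at hgt; exact absurd hgt (lt_irrefl _)
      · rw [hm, div_mul_cancel₀ _ hs.ne']
    rw [this] at key
    nlinarith [mul_pos hτ hs]
  refine ⟨?_, hb4, gt_case⟩
  rcases (one_le_tf τ s).lt_or_eq with hgt | heq
  · nlinarith [gt_case hgt, sq_nonneg s]
  · rw [← hTdef] at heq
    rw [← heq, one_mul] at key
    rw [← heq]
    rw [div_one] at key ⊢
    nlinarith [mul_pos hτ hs]

lemma br_tf (h : IsNear X (τ ^ 2)) (hτ : 0 < τ) (hτ1 : τ ≤ 1) {a b : X} {s : ℝ}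
    (ha : ‖a‖ ≤ 32) (hs : 0 < s) (hs4 : s ≤ 4) (hb : ‖b‖ ≤ s) :
    |br a b - br a (tf τ s • b) / tf τ s| ≤ 300 * τ * s := by
  have hT : 0 < tf τ s := lt_of_lt_of_le one_pos (one_le_tf τ s)
  rcases (one_le_tf τ s).lt_or_eq with hgt | heq
  · have := br_smul_right_le a (tf τ s • b) (inv_nonneg.2 hT.le) (inv_le_one_of_one_le₀ hgt.le)
    rw [inv_smul_smul₀ hT.ne', ← div_eq_inv_mul] at this
    refine this.trans ?_
    have := (sd_tf h hτ hτ1 ha hs hs4 hb).2.2 hgt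
    rw [div_le_iff₀ hT] at this
    rw [inv_mul_eq_div, div_div, div_le_iff₀ (by positivity)]
    nlinarith [mul_pos (mul_pos hτ hs) hT]
  · rw [← heq, one_smul, div_one, sub_self, abs_zero]
    positivity

lemma expand_le (h : IsNear X (τ ^ 2)) (hτ : 0 < τ) (hτ1 : τ ≤ 1) {a b : X} {s : ℝ}
    (ha : ‖a‖ ≤ 32) (hs : 0 < s) (hs4 : s ≤ 4) (hb : ‖b‖ ≤ s) :
    |‖a + b‖ ^ 2 - ‖a‖ ^ 2 - 2 * br a b| ≤ 600 * τ * s + s ^ 2 := by
  have hT : 0 < tf τ s := lt_of_lt_of_le one_pos (one_le_tf τ s)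
  have := sd_smul_le a (tf τ s • b) (inv_nonneg.2 hT.le) (inv_le_one_of_one_le₀ (one_le_tf τ s))
  rw [inv_smul_smul₀ hT.ne', inv_mul_eq_div] at this
  rw [expand_exact, abs_of_nonneg (by linarith [sd_nonneg a b])]
  nlinarith [(sd_tf h hτ hτ1 ha hs hs4 hb).1, mul_pos hτ hs]

lemma expand_sub_le (h : IsNear X (τ ^ 2)) (hτ : 0 < τ) (hτ1 : τ ≤ 1) {a b : X} {s : ℝ}
    (ha : ‖a‖ ≤ 32) (hs : 0 < s) (hs4 : s ≤ 4) (hb : ‖b‖ ≤ s) :
    |‖a - b‖ ^ 2 - ‖a‖ ^ 2 + 2 * br a b| ≤ 600 * τ * s + s ^ 2 := by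
  have := expand_le h hτ hτ1 ha hs hs4 ((norm_neg b).trans_le hb)
  rw [← sub_eq_add_neg, br_neg_right] at this
  convert this using 2
  ring

lemma br_add_left_le (h : IsNear X (τ ^ 2)) (hτ : 0 < τ) (hτ1 : τ ≤ 1) {a a' b : X} {s : ℝ}
    (ha : ‖a‖ ≤ 16) (ha' : ‖a'‖ ≤ 16) (hs : 0 < s) (hs4 : s ≤ 4) (hb : ‖b‖ ≤ s) :
    |br (a + a') b - br a b - br a' b| ≤ 14000 * τ * s := by
  have hT : 0 < tf τ s := lt_of_lt_of_le one_pos (one_le_tf τ s)
  have e1 := br_tf h hτ hτ1 (a := a + a') (by linarith [norm_add_le a a']) hs hs4 hb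
  have e2 := br_tf h hτ hτ1 (a := a) (by linarith) hs hs4 hb
  have e3 := br_tf h hτ hτ1 (a := a') (by linarith) hs hs4 hb
  have e4 := br_big_add h (sq_nonneg τ) a a' (tf τ s • b)
  have hsum : ‖a‖ ^ 2 + ‖a'‖ ^ 2 + ‖tf τ s • b‖ ^ 2 ≤ 528 := by
    have := (sd_tf h hτ hτ1 (a := a) (by linarith) hs hs4 hb).2.1
    nlinarith [norm_nonneg a, norm_nonneg a', norm_nonneg (tf τ s • b)]
  have e5 : |br (a + a') (tf τ s • b) / tf τ s - br a (tf τ s • b) / tf τ s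
      - br a' (tf τ s • b) / tf τ s| ≤ 10560 * (τ * s) := by
    rw [← sub_div, ← sub_div, abs_div, abs_of_pos hT]
    calc _ ≤ 20 * τ ^ 2 * (‖a‖ ^ 2 + ‖a'‖ ^ 2 + ‖tf τ s • b‖ ^ 2) / tf τ s :=
          div_le_div_of_nonneg_right e4 hT.le
      _ ≤ 20 * τ ^ 2 * 528 / tf τ s := by gcongr
      _ = 10560 * (τ ^ 2 / tf τ s) := by ring
      _ ≤ _ := by linarith [(tf_facts hτ hs).1]
  have := mul_pos hτ hs
  rw [abs_le] at e1 e2 e3 e5 ⊢
  constructor <;> linarith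

lemma br_add_right_le (h : IsNear X (τ ^ 2)) (hτ : 0 < τ) (hτ1 : τ ≤ 1) {a b b' : X} {s : ℝ}
    (ha : ‖a‖ ≤ 16) (hs : 0 < s) (hs4 : s ≤ 2) (hb : ‖b‖ ≤ s) (hb' : ‖b'‖ ≤ s) :
    |br a (b + b') - br a b - br a b'| ≤ 14000 * τ * s := by
  have h2 : 0 < 2 * s := by linarith
  have hT : 0 < tf τ (2 * s) := lt_of_lt_of_le one_pos (one_le_tf τ _)
  have e1 := br_tf h hτ hτ1 (a := a) (by linarith) h2 (by linarith)
    (show ‖b + b'‖ ≤ 2 * s by linarith [norm_add_le b b'])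
  have e2 := br_tf h hτ hτ1 (a := a) (b := b) (by linarith) h2 (by linarith) (by linarith)
  have e3 := br_tf h hτ hτ1 (a := a) (b := b') (by linarith) h2 (by linarith) (by linarith)
  have e4 := br_big_add_right h (sq_nonneg τ) a (tf τ (2 * s) • b) (tf τ (2 * s) • b')
  rw [← smul_add] at e4
  have hsum : ‖a‖ ^ 2 + ‖tf τ (2 * s) • b‖ ^ 2 + ‖tf τ (2 * s) • b'‖ ^ 2 ≤ 288 := by
    have := (sd_tf h hτ hτ1 (a := a) (b := b) (by linarith) h2 (by linarith) (by linarith)).2.1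
    have := (sd_tf h hτ hτ1 (a := a) (b := b') (by linarith) h2 (by linarith) (by linarith)).2.1
    nlinarith [norm_nonneg a, norm_nonneg (tf τ (2 * s) • b), norm_nonneg (tf τ (2 * s) • b')]
  have e5 : |br a (tf τ (2 * s) • (b + b')) / tf τ (2 * s)
      - br a (tf τ (2 * s) • b) / tf τ (2 * s)
      - br a (tf τ (2 * s) • b') / tf τ (2 * s)| ≤ 5760 * (τ * (2 * s)) := by
    rw [← sub_div, ← sub_div, abs_div, abs_of_pos hT]
    refine (div_le_div_of_nonneg_right e4 hT.le).trans ?_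
    calc _ ≤ 20 * τ ^ 2 * 288 / tf τ (2 * s) := by gcongr
      _ = 5760 * (τ ^ 2 / tf τ (2 * s)) := by ring
      _ ≤ _ := by linarith [(tf_facts hτ h2).1]
  have := mul_pos hτ hs
  rw [abs_le] at e1 e2 e3 e5 ⊢
  constructor <;> linarith

lemma br_smul_left_le (h : IsNear X (τ ^ 2)) (hτ : 0 < τ) (hτ1 : τ ≤ 1) {a b : X} {r s : ℝ}
    (ha : ‖a‖ ≤ 16) (hra : ‖r • a‖ ≤ 32) (hr : |r| ≤ 16) (hs : 0 < s) (hs4 : s ≤ 4)
    (hb : ‖b‖ ≤ s) :
    |br (r • a) b - r * br a b| ≤ 90000 * τ * s := by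
  have hT : 0 < tf τ s := lt_of_lt_of_le one_pos (one_le_tf τ s)
  have e1 := br_tf h hτ hτ1 hra hs hs4 hb
  have e2 := br_tf h hτ hτ1 (a := a) (by linarith) hs hs4 hb
  have e2' : |r * br a b - r * (br a (tf τ s • b) / tf τ s)| ≤ 16 * (300 * τ * s) := by
    rw [← mul_sub, abs_mul]
    exact mul_le_mul hr e2 (abs_nonneg _) (by norm_num)
  have e4 := h.lin r a (tf τ s • b)
  have hsum : (1 + r ^ 2) * (‖a‖ ^ 2 + ‖tf τ s • b‖ ^ 2) ≤ 69904 := by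
    have := (sd_tf h hτ hτ1 (a := a) (by linarith) hs hs4 hb).2.1
    have h1 : 1 + r ^ 2 ≤ 257 := by nlinarith [abs_le.1 hr]
    have h2 : ‖a‖ ^ 2 + ‖tf τ s • b‖ ^ 2 ≤ 272 := by
      nlinarith [norm_nonneg a, norm_nonneg (tf τ s • b)]
    nlinarith [mul_le_mul h1 h2 (by positivity) (by norm_num)]
  have e5 : |br (r • a) (tf τ s • b) / tf τ s - r * (br a (tf τ s • b) / tf τ s)|
      ≤ 69904 * (τ * s) := by
    rw [← mul_div_assoc, ← sub_div, abs_div, abs_of_pos hT]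
    refine (div_le_div_of_nonneg_right e4 hT.le).trans ?_
    calc _ ≤ τ ^ 2 * 69904 / tf τ s := by rw [mul_assoc]; gcongr
      _ = 69904 * (τ ^ 2 / tf τ s) := by ring
      _ ≤ _ := by linarith [(tf_facts hτ hs).1]
  have := mul_pos hτ hs
  rw [abs_le] at e1 e2' e5 ⊢
  constructor <;> linarith

lemma br_smul_right (h : IsNear X (τ ^ 2)) (hτ : 0 < τ) (hτ1 : τ ≤ 1) {a b : X} {r s : ℝ}
    (ha : ‖a‖ ≤ 16) (hr : |r| ≤ 16) (hs : 0 < s) (hs4 : s ≤ 4)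
    (hb : ‖b‖ ≤ s) (hrb : ‖r • b‖ ≤ s) :
    |br a (r • b) - r * br a b| ≤ 90000 * τ * s := by
  have hT : 0 < tf τ s := lt_of_lt_of_le one_pos (one_le_tf τ s)
  have e1 := br_tf h hτ hτ1 (a := a) (by linarith) hs hs4 hrb
  have e2 := br_tf h hτ hτ1 (a := a) (by linarith) hs hs4 hb
  have e2' : |r * br a b - r * (br a (tf τ s • b) / tf τ s)| ≤ 16 * (300 * τ * s) := by
    rw [← mul_sub, abs_mul]
    exact mul_le_mul hr e2 (abs_nonneg _) (by norm_num)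
  have e4 := h.lin r (tf τ s • b) a
  rw [br_comm (r • _) a, br_comm _ a, smul_comm] at e4
  have hsum : (1 + r ^ 2) * (‖tf τ s • b‖ ^ 2 + ‖a‖ ^ 2) ≤ 69904 := by
    have := (sd_tf h hτ hτ1 (a := a) (by linarith) hs hs4 hb).2.1
    have h1 : 1 + r ^ 2 ≤ 257 := by nlinarith [abs_le.1 hr]
    have h2 : ‖tf τ s • b‖ ^ 2 + ‖a‖ ^ 2 ≤ 272 := by
      nlinarith [norm_nonneg a, norm_nonneg (tf τ s • b)]
    nlinarith [mul_le_mul h1 h2 (by positivity) (by norm_num)]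
  have e5 : |br a (tf τ s • r • b) / tf τ s - r * (br a (tf τ s • b) / tf τ s)|
      ≤ 69904 * (τ * s) := by
    rw [← mul_div_assoc, ← sub_div, abs_div, abs_of_pos hT]
    refine (div_le_div_of_nonneg_right e4 hT.le).trans ?_
    calc _ ≤ τ ^ 2 * 69904 / tf τ s := by rw [mul_assoc]; gcongr
      _ = 69904 * (τ ^ 2 / tf τ s) := by ring
      _ ≤ _ := by linarith [(tf_facts hτ hs).1]
  have := mul_pos hτ hs
  rw [abs_le] at e1 e2' e5 ⊢
  constructor <;> linarith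

end Vale.Agent.P084.Near
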