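import Vale.Agent.P084.Near.Bracket

/-!
# Isometries of spheres of nearly Hilbert spaces preserve antipodes
-/

set_option linter.unusedSectionVars false

namespace Vale.Agent.P084.Near

variable {X Y : Type*} [NormedAddCommGroup X] [NormedSpace ℝ X]
  [NormedAddCommGroup Y] [NormedSpace ℝ Y]

/-- A surjective isometry of unit spheres, extended arbitrarily to the whole space. -/
structure UnitMap (g : X → Y) : Prop where
  norm : ∀ u, ‖u‖ = 1 → ‖g u‖ = 1
  dist : ∀ u v, ‖u‖ = 1 → ‖v‖ = 1 → ‖g u - g v‖ = ‖u - v‖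
  surj : ∀ y, ‖y‖ = 1 → ∃ u, ‖u‖ = 1 ∧ g u = y

variable {τ : ℝ} {g : X → Y}

lemma odd_step (hY : IsNear Y (τ ^ 2)) (hτ : 0 < τ) (hτ1 : τ ≤ 1) (hg : UnitMap g) {s : ℝ}
    (hs : 0 < s) (hs1 : s ≤ 1) (hb : ∀ u, ‖u‖ = 1 → ‖g u + g (-u)‖ ≤ s) :
    ∀ u, ‖u‖ = 1 → ‖g u + g (-u)‖ ≤ 100000 * (τ * s + s ^ 2) := by
  intro v hv
  set ev := g v + g (-v) with hev
  rcases eq_or_ne ev 0 with h0 | h0
  · rw [h0, norm_zero]; positivity
  obtain ⟨u, hu, hgu⟩ := hg.surj (‖ev‖⁻¹ • ev) (by simp [norm_smul, h0])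
  set eu := g u + g (-u) with heu
  have hnv : ‖-v‖ = 1 := by rwa [norm_neg]
  have hnu : ‖-u‖ = 1 := by rwa [norm_neg]
  have hgu1 := hg.norm u hu
  have hgv1 := hg.norm v hv
  have hA : ‖g u + g v‖ ≤ 2 := by linarith [norm_add_le (g u) (g v)]
  have hB : ‖g u - g v‖ ≤ 2 := by linarith [norm_sub_le (g u) (g v)]
  have hA1 : ‖g u + g v - ev‖ = ‖u + v‖ := by
    rw [hev, show g u + g v - (g v + g (-v)) = g u - g (-v) by abel, hg.dist u (-v) hu hnv,
      sub_neg_eq_add]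
  have hA2 : ‖g u + g v - eu‖ = ‖u + v‖ := by
    rw [heu, show g u + g v - (g u + g (-u)) = g v - g (-u) by abel, hg.dist v (-u) hv hnu,
      sub_neg_eq_add, add_comm]
  have hB1 : ‖g u - g v - (eu + -ev)‖ = ‖g u - g v‖ := by
    rw [heu, hev, show g u - g v - (g u + g (-u) + -(g v + g (-v))) = g (-v) - g (-u) by abel,
      hg.dist _ _ hnv hnu, hg.dist u v hu hv, neg_sub_neg]
  have hS : ‖g u - eu‖ = 1 := by
    rw [heu, show g u - (g u + g (-u)) = -g (-u) by abel, norm_neg, hg.norm _ hnu]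
  have beu : ‖eu‖ ≤ s := hb u hu
  have bev : ‖ev‖ ≤ s := hb v hv
  have bd : ‖eu + -ev‖ ≤ 2 * s := by
    linarith [norm_add_le eu (-ev), norm_neg ev]
  have x1 := expand_sub_le hY hτ hτ1 (a := g u + g v) (b := ev) (by linarith) hs (by linarith) bev
  have x2 := expand_sub_le hY hτ hτ1 (a := g u + g v) (b := eu) (by linarith) hs (by linarith) beu
  have x3 := expand_sub_le hY hτ hτ1 (a := g u - g v) (b := eu + -ev) (by linarith)
    (show (0:ℝ) < 2 * s by linarith) (by linarith) bd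
  have x4 := expand_sub_le hY hτ hτ1 (a := g u) (b := eu) (by linarith) hs (by linarith) beu
  rw [hA1] at x1
  rw [hA2] at x2
  rw [hB1] at x3
  rw [hS, hgu1] at x4
  have a1 := br_add_left_le hY hτ hτ1 (a := g u) (a' := g v) (by linarith) (by linarith) hs
    (by linarith) bev
  have a2 := br_add_left_le hY hτ hτ1 (a := g u) (a' := g v) (by linarith) (by linarith) hs
    (by linarith) beu
  have a3 := br_add_left_le hY hτ hτ1 (a := g u) (a' := -g v) (by linarith)
    (by rw [norm_neg]; linarith) hs (by linarith) bev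
  have a4 := br_add_left_le hY hτ hτ1 (a := g u) (a' := -g v) (by linarith)
    (by rw [norm_neg]; linarith) hs (by linarith) beu
  rw [← sub_eq_add_neg, br_neg_left] at a3 a4
  have a5 := br_add_right_le hY hτ hτ1 (a := g u - g v) (b := eu) (b' := -ev) (by linarith) hs
    (by linarith) beu (by rwa [norm_neg])
  rw [br_neg_right] at a5
  have hz : br (g u) ev = ‖ev‖ := by rw [hgu, br_unit_self h0]
  have := mul_pos hτ hs
  have := sq_nonneg s
  rw [abs_le] at x1 x2 x3 x4 a1 a2 a3 a4 a5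
  linarith

theorem unitMap_odd (hX : IsNear X (τ ^ 2)) (hY : IsNear Y (τ ^ 2)) (hτ : 0 < τ)
    (hτ0 : τ ≤ 1 / 10 ^ 15) (hg : UnitMap g) : ∀ u, ‖u‖ = 1 → g (-u) = -g u := by
  have hτ1 : τ ≤ 1 := hτ0.trans (by norm_num)
  have h0 : ∀ u, ‖u‖ = 1 → ‖g u + g (-u)‖ ≤ 2 * τ := by
    intro v hv
    obtain ⟨c, hc, hgc⟩ := hg.surj (-g v) (by rw [norm_neg, hg.norm v hv])
    have h2 : ‖v - c‖ = 2 := by
      rw [← hg.dist v c hv hc, hgc, show g v - -g v = (2 : ℝ) • g v by module, norm_smul,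
        hg.norm v hv, Real.norm_ofNat, mul_one]
    have hp := hX.par v c
    rw [h2, hv, hc] at hp
    have hvc : ‖v + c‖ ≤ 2 * τ := by
      rw [abs_le] at hp
      nlinarith [norm_nonneg (v + c)]
    have : g v + g (-v) = g (-v) - g c := by rw [hgc]; abel
    rw [this, hg.dist _ _ (by rwa [norm_neg]) hc, show -v - c = -(v + c) by abel, norm_neg]
    exact hvc
  have iter : ∀ n : ℕ, ∀ u, ‖u‖ = 1 → ‖g u + g (-u)‖ ≤ 2 * τ * (1 / 2) ^ n := by
    intro n
    induction n with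
    | zero => simpa using h0
    | succ n ih =>
      intro u hu
      have hp : ((1 : ℝ) / 2) ^ n ≤ 1 := pow_le_one₀ (by norm_num) (by norm_num)
      have hp0 : (0 : ℝ) < (1 / 2) ^ n := by positivity
      refine (odd_step hY hτ hτ1 hg (by positivity) (by nlinarith) ih u hu).trans ?_
      rw [pow_succ ((1 : ℝ) / 2) n, sq]
      generalize ((1 : ℝ) / 2) ^ n = q at hp hp0 ⊢
      norm_num at hτ0
      have := mul_pos hτ hp0
      have := mul_le_mul_of_nonneg_left hτ0 (mul_pos hτ hp0).le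
      have := mul_le_mul_of_nonneg_left hp (mul_pos hτ (mul_pos hτ hp0)).le
      linarith
  intro u hu
  have h : ‖g u + g (-u)‖ ≤ 0 := by
    have lim : Filter.Tendsto (fun n : ℕ => 2 * τ * (1 / 2 : ℝ) ^ n) Filter.atTop
        (nhds (2 * τ * 0)) :=
      (tendsto_pow_atTop_nhds_zero_of_lt_one (by norm_num) (by norm_num)).const_mul _
    rw [mul_zero] at lim
    exact ge_of_tendsto' lim fun n => iter n u hu
  exact eq_neg_of_add_eq_zero_right (norm_le_zero_iff.1 h)

end Vale.Agent.P084.Near
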