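import Vale.Agent.P084.Near.Plane
import Vale.Agent.P084.Near.Odd

/-!
# The in-plane part of the defect
-/

set_option linter.unusedSectionVars false

namespace Vale.Agent.P084.Near

variable {X Y : Type*} [NormedAddCommGroup X] [NormedSpace ℝ X]
  [NormedAddCommGroup Y] [NormedSpace ℝ Y]

/-- The homogeneous extension of an antipode preserving surjective isometry of unit spheres. -/
structure SphereMap (F : X → Y) : Prop where
  smul : ∀ (r : ℝ) (p : X), F (r • p) = r • F p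
  norm : ∀ p, ‖F p‖ = ‖p‖
  dist : ∀ p q, ‖p‖ = ‖q‖ → ‖F p - F q‖ = ‖p - q‖
  surj : ∀ y, ∃ p, F p = y

/-- The defect of linearity in the plane of `e` and `f`. -/
def defect (F : X → Y) (e f : X) (a b : ℝ) : Y := F (a • e + b • f) - a • F e - b • F f

/-- A bound for all normalised defects. -/
def Bd (F : X → Y) (s : ℝ) : Prop :=
  ∀ e f, Orth e f → ∀ a b, |a| ≤ 1 → |b| ≤ 1 → ‖defect F e f a b‖ ≤ s

/-- The defect of the norm of the linearisation. -/
def kk (F : X → Y) (e f : X) (a b : ℝ) : ℝ :=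
  ‖a • F e + b • F f‖ ^ 2 - ‖a • e + b • f‖ ^ 2

variable {F : X → Y} {e f : X} {τ s : ℝ}

lemma SphereMap.add (hF : SphereMap F) {p q : X} (h : ‖p‖ = ‖q‖) :
    ‖F p + F q‖ = ‖p + q‖ := by
  have hq : F (-q) = -F q := by simpa using hF.smul (-1) q
  have := hF.dist p (-q) (by rwa [norm_neg])
  rwa [hq, sub_neg_eq_add, sub_neg_eq_add] at this

lemma SphereMap.br_eq (hF : SphereMap F) {p q : X} (h : ‖p‖ = ‖q‖) :
    br (F p) (F q) = br p q := by rw [br, br, hF.add h, hF.dist p q h]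

lemma SphereMap.orth (hF : SphereMap F) (he : Orth e f) : Orth (F e) (F f) := by
  obtain ⟨h1, h2, h3⟩ := he
  exact ⟨(hF.norm e).trans h1, (hF.norm f).trans h2,
    by rw [hF.add (h1.trans h2.symm), hF.dist e f (h1.trans h2.symm), h3]⟩

lemma defect_mul (hF : SphereMap F) (r a b : ℝ) :
    defect F e f (r * a) (r * b) = r • defect F e f a b := by
  unfold defect
  rw [show (r * a) • e + (r * b) • f = r • (a • e + b • f) by module, hF.smul]
  module

lemma defect_le (hF : SphereMap F) (hB : Bd F s) (he : Orth e f) {A a b : ℝ} (hA : 0 < A)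
    (ha : |a| ≤ A) (hb : |b| ≤ A) : ‖defect F e f a b‖ ≤ A * s := by
  have h1 : |a / A| ≤ 1 := by rwa [abs_div, abs_of_pos hA, div_le_one hA]
  have h2 : |b / A| ≤ 1 := by rwa [abs_div, abs_of_pos hA, div_le_one hA]
  have := hB e f he _ _ h1 h2
  rw [show a = A * (a / A) by field_simp, show b = A * (b / A) by field_simp, defect_mul hF,
    norm_smul, Real.norm_of_nonneg hA.le]
  exact mul_le_mul_of_nonneg_left this hA.le

lemma kk_mul (r a b : ℝ) : kk F e f (r * a) (r * b) = r ^ 2 * kk F e f a b := by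
  unfold kk
  rw [show (r * a) • F e + (r * b) • F f = r • (a • F e + b • F f) by module,
    show (r * a) • e + (r * b) • f = r • (a • e + b • f) by module, norm_smul, norm_smul,
    mul_pow, mul_pow, Real.norm_eq_abs, sq_abs]
  ring

lemma kk_swap (a b : ℝ) : kk F f e b a = kk F e f a b := by
  unfold kk; rw [add_comm (b • F f), add_comm (b • f)]

lemma defect_swap (a b : ℝ) : defect F f e b a = defect F e f a b := by
  unfold defect; rw [add_comm (b • f)]; abel

lemma orth_swap (he : Orth e f) : Orth f e :=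
  ⟨he.2.1, he.1, by rw [add_comm, he.2.2, norm_sub_rev]⟩

section coords

variable (hX : IsNear X (τ ^ 2)) (hτ : 0 < τ) (hτ0 : τ ≤ 1 / 10 ^ 15)

include hX hτ hτ0

lemma coord_le (he : Orth e f) (a b : ℝ) :
    (a ^ 2 + b ^ 2) * (999 / 1000) ≤ ‖a • e + b • f‖ ^ 2 ∧
      ‖a • e + b • f‖ ^ 2 ≤ (a ^ 2 + b ^ 2) * (1001 / 1000) := by
  have h := hX.plane e f he.1 he.2.1 he.2.2 a b
  norm_num at hτ0
  have h2 : τ ^ 2 ≤ 1 / 1000 := by nlinarith
  have := mul_le_mul_of_nonneg_right h2 (add_nonneg (sq_nonneg a) (sq_nonneg b))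
  rw [abs_le] at h
  constructor <;> linarith

lemma coord_abs_le (he : Orth e f) {a b R : ℝ} (h : ‖a • e + b • f‖ ≤ R) :
    |a| ≤ 11 / 10 * R ∧ |b| ≤ 11 / 10 * R := by
  have h1 := (coord_le hX hτ hτ0 he a b).1
  have h2 := pow_le_pow_left₀ (norm_nonneg _) h 2
  have hR : 0 ≤ R := (norm_nonneg _).trans h
  constructor <;> nlinarith [sq_abs a, sq_abs b, sq_nonneg a, sq_nonneg b, abs_nonneg a,
    abs_nonneg b]

end coords

lemma exists_zero {τ : ℝ} (hX : IsNear X (τ ^ 2)) (hτ : 0 < τ) (hτ0 : τ ≤ 1 / 10 ^ 15)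
    (hF : SphereMap F) (he : Orth e f) {a b : ℝ} (hu : ‖a • e + b • f‖ = 1) :
    ∃ c d, ‖c • e + d • f‖ = 1 ∧ kk F e f c d = 0 ∧ 9 / 10 ≤ a * c + b * d := by
  obtain ⟨h1, h2⟩ := coord_le hX hτ hτ0 he a b
  rw [hu, one_pow] at h1 h2
  have z1 : ∀ r : ℝ, |r| = 1 → ‖r • e + (0:ℝ) • f‖ = 1 ∧ kk F e f r 0 = 0 := fun r hr => by
    simp [kk, norm_smul, he.1, hF.norm, hr]
  have z2 : ∀ r : ℝ, |r| = 1 → ‖(0:ℝ) • e + r • f‖ = 1 ∧ kk F e f 0 r = 0 := fun r hr => by
    simp [kk, norm_smul, he.2.1, hF.norm, hr]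
  by_cases ha : 9 / 10 ≤ |a|
  · rcases le_total 0 a with h | h
    · exact ⟨1, 0, (z1 1 (by simp)).1, (z1 1 (by simp)).2, by
        rw [abs_of_nonneg h] at ha; linarith⟩
    · exact ⟨-1, 0, (z1 (-1) (by simp)).1, (z1 (-1) (by simp)).2, by
        rw [abs_of_nonpos h] at ha; linarith⟩
  by_cases hb : 9 / 10 ≤ |b|
  · rcases le_total 0 b with h | h
    · exact ⟨0, 1, (z2 1 (by simp)).1, (z2 1 (by simp)).2, by
        rw [abs_of_nonneg h] at hb; linarith⟩
    · exact ⟨0, -1, (z2 (-1) (by simp)).1, (z2 (-1) (by simp)).2, by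
        rw [abs_of_nonpos h] at hb; linarith⟩
  obtain ⟨σ₁, hσ₁, hσa⟩ : ∃ r : ℝ, (r = 1 ∨ r = -1) ∧ r * a = |a| := by
    rcases le_total 0 a with h | h
    · exact ⟨1, Or.inl rfl, by rw [abs_of_nonneg h, one_mul]⟩
    · exact ⟨-1, Or.inr rfl, by rw [abs_of_nonpos h, neg_one_mul]⟩
  obtain ⟨σ₂, hσ₂, hσb⟩ : ∃ r : ℝ, (r = 1 ∨ r = -1) ∧ r * b = |b| := by
    rcases le_total 0 b with h | h
    · exact ⟨1, Or.inl rfl, by rw [abs_of_nonneg h, one_mul]⟩
    · exact ⟨-1, Or.inr rfl, by rw [abs_of_nonpos h, neg_one_mul]⟩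
  set N := ‖σ₁ • e + σ₂ • f‖ with hN
  have hσ2 : σ₁ ^ 2 + σ₂ ^ 2 = 2 := by
    rcases hσ₁ with rfl | rfl <;> rcases hσ₂ with rfl | rfl <;> norm_num
  obtain ⟨hN1, hN2⟩ := coord_le hX hτ hτ0 he σ₁ σ₂
  rw [← hN, hσ2] at hN1 hN2
  have hN0 : 0 < N := by nlinarith [norm_nonneg (σ₁ • e + σ₂ • f)]
  have hNle : N ≤ 71 / 50 := by nlinarith
  refine ⟨N⁻¹ * σ₁, N⁻¹ * σ₂, ?_, ?_, ?_⟩
  · rw [show (N⁻¹ * σ₁) • e + (N⁻¹ * σ₂) • f = N⁻¹ • (σ₁ • e + σ₂ • f) by module, norm_smul,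
      norm_inv, Real.norm_of_nonneg hN0.le, ← hN, inv_mul_cancel₀ hN0.ne']
  · have h0 : kk F e f σ₁ σ₂ = 0 := by
      have e1 : ‖σ₁ • e‖ = ‖σ₂ • f‖ := by
        rcases hσ₁ with rfl | rfl <;> rcases hσ₂ with rfl | rfl <;> simp [he.1, he.2.1]
      unfold kk
      rw [← hF.smul, ← hF.smul, hF.add e1, sub_self]
    rw [kk_mul, h0, mul_zero]
  · rw [show a * (N⁻¹ * σ₁) + b * (N⁻¹ * σ₂) = (σ₁ * a + σ₂ * b) / N by ring, hσa, hσb,
      le_div_iff₀ hN0]
    have hsq : 13 / 10 ≤ |a| + |b| := by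
      push Not at ha hb
      have ha2 : a ^ 2 ≤ 81 / 100 := by nlinarith [sq_abs a, abs_nonneg a]
      have hb2 : b ^ 2 ≤ 81 / 100 := by nlinarith [sq_abs b, abs_nonneg b]
      have hab : 15 / 100 ≤ a ^ 2 * b ^ 2 := by
        have := mul_nonneg (sub_nonneg.2 ha2) (sub_nonneg.2 hb2)
        linarith
      have hab' : 38 / 100 ≤ |a| * |b| := by
        refine le_of_pow_le_pow_left₀ two_ne_zero (by positivity) ?_
        rw [mul_pow, sq_abs, sq_abs]
        linarith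
      have e2 : (|a| + |b|) ^ 2 = a ^ 2 + b ^ 2 + 2 * (|a| * |b|) := by
        rw [add_sq, sq_abs, sq_abs]; ring
      have : (13 / 10 : ℝ) ^ 2 ≤ (|a| + |b|) ^ 2 := by rw [e2]; linarith
      exact le_of_pow_le_pow_left₀ two_ne_zero (by positivity) this
    linarith

lemma exists_partner {τ : ℝ} (hX : IsNear X (τ ^ 2)) (hτ : 0 < τ) (hτ0 : τ ≤ 1 / 10 ^ 15)
    (he : Orth e f) {a b c d : ℝ} (hu : ‖a • e + b • f‖ = 1) (hv : ‖c • e + d • f‖ = 1)
    (hcos : 9 / 10 ≤ a * c + b * d) :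
    ∃ t : ℝ, (176 / 100 : ℝ) ^ 2 ≤ t ^ 2 ∧ ‖(t * a - c) • e + (t * b - d) • f‖ = 1 ∧
      ‖(t * a - c - c) • e + (t * b - d - d) • f‖ ^ 2 ≤ 93 / 100 := by
  obtain ⟨h1, h2⟩ := coord_le hX hτ hτ0 he a b
  rw [hu, one_pow] at h1 h2
  obtain ⟨g1, g2⟩ := coord_le hX hτ hτ0 he c d
  rw [hv, one_pow] at g1 g2
  let g : ℝ → ℝ := fun t => ‖(t * a - c) • e + (t * b - d) • f‖
  have gc : ContinuousOn g (Set.Icc (176 / 100) 3) := by fun_prop
  have glo : g (176 / 100) ≤ 1 := by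
    have := (coord_le hX hτ hτ0 he (176 / 100 * a - c) (176 / 100 * b - d)).2
    refine (pow_le_one_iff_of_nonneg (norm_nonneg _) two_ne_zero).1 ?_
    linarith
  have ghi : 1 ≤ g 3 := by
    have := (coord_le hX hτ hτ0 he (3 * a - c) (3 * b - d)).1
    have := sq_nonneg (a - c)
    have := sq_nonneg (b - d)
    refine (one_le_pow_iff_of_nonneg (norm_nonneg _) two_ne_zero).1 ?_
    linarith
  obtain ⟨t, ⟨ht1, -⟩, ht⟩ := intermediate_value_Icc (by norm_num) gc ⟨glo, ghi⟩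
  have hx : ‖(t * a - c) • e + (t * b - d) • f‖ = 1 := ht
  have hE' := (coord_le hX hτ hτ0 he (t * a - c) (t * b - d)).1
  rw [hx, one_pow] at hE'
  have h3 := (coord_le hX hτ hτ0 he (t * a - c - c) (t * b - d - d)).2
  have ht2 : (176 / 100 : ℝ) ^ 2 ≤ t ^ 2 := pow_le_pow_left₀ (by norm_num) ht1 2
  have hfar : ‖(t * a - c - c) • e + (t * b - d - d) • f‖ ^ 2 ≤ 93 / 100 := by
    have hE0 : t ^ 2 * (999 / 1000) ≤ t ^ 2 * (a ^ 2 + b ^ 2) :=
      mul_le_mul_of_nonneg_left (by linarith) (sq_nonneg t)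
    linarith
  exact ⟨t, ht2, hx, hfar⟩

variable (hX : IsNear X (τ ^ 2)) (hY : IsNear Y (τ ^ 2)) (hτ : 0 < τ) (hτ0 : τ ≤ 1 / 10 ^ 15)
  (hF : SphereMap F) (hs : 0 < s) (hs1 : s ≤ 1 / 100) (hB : Bd F s)

include hX hY hτ hτ0 hF hs hs1 hB

lemma kk_unit (he : Orth e f) {a b : ℝ} (hu : ‖a • e + b • f‖ = 1) :
    |kk F e f a b + 2 * br (F (a • e + b • f)) (defect F e f a b)|
      ≤ 1200 * (τ * s) + 4 * s ^ 2 := by
  obtain ⟨ha, hb⟩ := coord_abs_le hX hτ hτ0 he hu.le
  have hd := defect_le hF hB he (A := 2) (a := a) (b := b) (by norm_num) (by linarith) (by linarith)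
  have h := expand_sub_le hY hτ (hτ0.trans (by norm_num)) (a := F (a • e + b • f))
    (b := defect F e f a b) (by rw [hF.norm, hu]; norm_num) (show (0:ℝ) < 2 * s by linarith)
    (by linarith) hd
  have e1 : F (a • e + b • f) - defect F e f a b = a • F e + b • F f := by unfold defect; abel
  rw [e1, hF.norm, hu, one_pow] at h
  unfold kk
  rw [hu, one_pow]
  rw [abs_le] at h ⊢
  constructor <;> linarith

lemma kk_eqn (he : Orth e f) {a b c d : ℝ} (hu : ‖a • e + b • f‖ = 1)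
    (hv : ‖c • e + d • f‖ = 1) :
    |kk F e f (a + c) (b + d) + kk F e f (a - c) (b - d)
      - 2 * kk F e f a b - 2 * kk F e f c d| ≤ 500000 * (τ * s + s ^ 2) := by
  have hτ1 : τ ≤ 1 := hτ0.trans (by norm_num)
  obtain ⟨ha, hb⟩ := coord_abs_le hX hτ hτ0 he hu.le
  obtain ⟨hc, hd⟩ := coord_abs_le hX hτ hτ0 he hv.le
  have k1 := kk_unit hX hY hτ hτ0 hF hs hs1 hB he hu
  have k2 := kk_unit hX hY hτ hτ0 hF hs hs1 hB he hv
  set u := a • e + b • f with hudef
  set v := c • e + d • f with hvdef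
  set Du := defect F e f a b with hDu
  set Dv := defect F e f c d with hDv
  have bDu : ‖Du‖ ≤ 2 * s := defect_le hF hB he (by norm_num) (by linarith) (by linarith)
  have bDv : ‖Dv‖ ≤ 2 * s := defect_le hF hB he (by norm_num) (by linarith) (by linarith)
  have bDv' : ‖-Dv‖ ≤ 2 * s := by rwa [norm_neg]
  have hFu : ‖F u‖ = 1 := (hF.norm u).trans hu
  have hFv : ‖F v‖ = 1 := (hF.norm v).trans hv
  have hsum : ‖F u + F v‖ ≤ 2 := by linarith [norm_add_le (F u) (F v)]
  have hdif : ‖F u - F v‖ ≤ 2 := by linarith [norm_sub_le (F u) (F v)]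
  have s2 : (0 : ℝ) < 2 * s := by linarith
  have s4 : (0 : ℝ) < 4 * s := by linarith
  have p := expand_sub_le hY hτ hτ1 (a := F u + F v) (b := Du + Dv) (by linarith) s4 (by linarith)
    (by linarith [norm_add_le Du Dv])
  have m := expand_sub_le hY hτ hτ1 (a := F u - F v) (b := Du + -Dv) (by linarith) s4 (by linarith)
    (by linarith [norm_add_le Du (-Dv)])
  have ep : ‖F u + F v - (Du + Dv)‖ ^ 2 - ‖F u + F v‖ ^ 2 = kk F e f (a + c) (b + d) := by
    rw [hF.add (hu.trans hv.symm)]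
    unfold kk
    rw [hudef, hvdef, hDu, hDv]
    unfold defect
    congr 2 <;> congr 1 <;> module
  have em : ‖F u - F v - (Du + -Dv)‖ ^ 2 - ‖F u - F v‖ ^ 2 = kk F e f (a - c) (b - d) := by
    rw [hF.dist u v (hu.trans hv.symm)]
    unfold kk
    rw [hudef, hvdef, hDu, hDv]
    unfold defect
    congr 2 <;> congr 1 <;> module
  rw [ep] at p
  rw [em] at m
  have r1 := br_add_right_le hY hτ hτ1 (a := F u + F v) (by linarith) s2 (by linarith) bDu bDv
  have r2 := br_add_right_le hY hτ hτ1 (a := F u - F v) (by linarith) s2 (by linarith) bDu bDv'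
  rw [br_neg_right] at r2
  have l1 := br_add_left_le hY hτ hτ1 (a := F u) (a' := F v) (by linarith) (by linarith) s2
    (by linarith) bDu
  have l2 := br_add_left_le hY hτ hτ1 (a := F u) (a' := F v) (by linarith) (by linarith) s2
    (by linarith) bDv
  have l3 := br_add_left_le hY hτ hτ1 (a := F u) (a' := -F v) (by linarith)
    (by rw [norm_neg]; linarith) s2 (by linarith) bDu
  have l4 := br_add_left_le hY hτ hτ1 (a := F u) (a' := -F v) (by linarith)
    (by rw [norm_neg]; linarith) s2 (by linarith) bDv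
  rw [← sub_eq_add_neg, br_neg_left] at l3 l4
  have := mul_pos hτ hs
  have := sq_nonneg s
  rw [abs_le] at p m r1 r2 l1 l2 l3 l4 k1 k2 ⊢
  constructor <;> linarith

/-- The contraction step. -/
lemma kk_step (he : Orth e f) {M : ℝ}
    (hM : ∀ a b, ‖a • e + b • f‖ = 1 → |kk F e f a b| ≤ M) :
    ∀ a b, ‖a • e + b • f‖ = 1 → |kk F e f a b| ≤ 95 / 100 * M + 500000 * (τ * s + s ^ 2) := by
  intro a b hu
  have hρ : 0 ≤ τ * s + s ^ 2 := by positivity
  have hM0 : 0 ≤ M := (abs_nonneg _).trans (hM a b hu)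
  have hgen : ∀ c d, |kk F e f c d| ≤ ‖c • e + d • f‖ ^ 2 * M := by
    intro c d
    rcases eq_or_ne (c • e + d • f) 0 with h0 | h0
    · have h1 : ∀ x, ‖x • e + (0:ℝ) • f‖ = |x| := fun x => by simp [norm_smul, he.1]
      obtain ⟨hc, hd⟩ := coord_abs_le hX hτ hτ0 he (R := 0) (by rw [h0, norm_zero])
      have hc0 : c = 0 := abs_eq_zero.1 (le_antisymm (by linarith) (abs_nonneg c))
      have hd0 : d = 0 := abs_eq_zero.1 (le_antisymm (by linarith) (abs_nonneg d))
      simp [kk, hc0, hd0]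
    · set n := ‖c • e + d • f‖ with hn
      have hn0 : n ≠ 0 := norm_ne_zero_iff.2 h0
      have h1 : ‖(n⁻¹ * c) • e + (n⁻¹ * d) • f‖ = 1 := by
        rw [show (n⁻¹ * c) • e + (n⁻¹ * d) • f = n⁻¹ • (c • e + d • f) by module, norm_smul,
          norm_inv, Real.norm_of_nonneg (hn ▸ norm_nonneg _), ← hn, inv_mul_cancel₀ hn0]
      rw [show c = n * (n⁻¹ * c) by field_simp, show d = n * (n⁻¹ * d) by field_simp, kk_mul,
        abs_mul, abs_of_nonneg (sq_nonneg n)]
      exact mul_le_mul_of_nonneg_left (hM _ _ h1) (sq_nonneg _)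
  obtain ⟨h1, h2⟩ := coord_le hX hτ hτ0 he a b
  rw [hu, one_pow] at h1 h2
  -- a zero of `kk` at a small angle
  obtain ⟨c, d, hv, hk, hcos⟩ := exists_zero hX hτ hτ0 hF he hu
  obtain ⟨g1, g2⟩ := coord_le hX hτ hτ0 he c d
  rw [hv, one_pow] at g1 g2
  obtain ⟨t, ht2, hx, hfar⟩ := exists_partner hX hτ hτ0 he hu hv hcos
  have eq := kk_eqn hX hY hτ hτ0 hF hs hs1 hB he hx hv
  rw [sub_add_cancel, sub_add_cancel, kk_mul, hk] at eq
  have b1 := hgen (t * a - c - c) (t * b - d - d)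
  have b2 := hM _ _ hx
  have b3 : |kk F e f (t * a - c - c) (t * b - d - d)| ≤ 93 / 100 * M :=
    b1.trans (mul_le_mul_of_nonneg_right hfar hM0)
  have b4 : t ^ 2 * |kk F e f a b| ≤ 293 / 100 * M + 500000 * (τ * s + s ^ 2) := by
    rw [show t ^ 2 * |kk F e f a b| = |t ^ 2 * kk F e f a b| by
      rw [abs_mul, abs_of_nonneg (sq_nonneg t)], abs_le]
    rw [abs_le] at eq b2 b3
    constructor <;> linarith
  have := mul_le_mul_of_nonneg_right ht2 (abs_nonneg (kk F e f a b))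
  nlinarith [abs_nonneg (kk F e f a b)]

lemma kk_le (he : Orth e f) (a b : ℝ) :
    |kk F e f a b| ≤ 10000000 * (τ * s + s ^ 2) * ‖a • e + b • f‖ ^ 2 := by
  set ρ := τ * s + s ^ 2
  have hρ : 0 ≤ ρ := by positivity
  have iter : ∀ n : ℕ, ∀ a b, ‖a • e + b • f‖ = 1 →
      |kk F e f a b| ≤ 100 * (95 / 100) ^ n + 10000000 * ρ := by
    intro n
    induction n with
    | zero =>
      intro a b hu
      obtain ⟨ha, hb⟩ := coord_abs_le hX hτ hτ0 he hu.le
      have h1 : ‖a • F e + b • F f‖ ≤ 3 := by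
        refine (norm_add_le _ _).trans ?_
        rw [norm_smul, norm_smul, hF.norm, hF.norm, he.1, he.2.1, Real.norm_eq_abs,
          Real.norm_eq_abs]
        linarith
      unfold kk
      rw [hu, abs_le]
      constructor <;> nlinarith [norm_nonneg (a • F e + b • F f)]
    | succ n ih =>
      intro a b hu
      refine (kk_step hX hY hτ hτ0 hF hs hs1 hB he ih a b hu).trans ?_
      rw [pow_succ ((95 : ℝ) / 100) n]
      linarith
  have unit : ∀ a b, ‖a • e + b • f‖ = 1 → |kk F e f a b| ≤ 10000000 * ρ := by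
    intro a b hu
    have lim : Filter.Tendsto (fun n : ℕ => 100 * (95 / 100 : ℝ) ^ n + 10000000 * ρ) Filter.atTop
        (nhds (100 * 0 + 10000000 * ρ)) :=
      ((tendsto_pow_atTop_nhds_zero_of_lt_one (by norm_num) (by norm_num)).const_mul _).add_const _
    rw [mul_zero, zero_add] at lim
    exact ge_of_tendsto' lim fun n => iter n a b hu
  rcases eq_or_ne (a • e + b • f) 0 with h0 | h0
  · obtain ⟨hc, hd⟩ := coord_abs_le hX hτ hτ0 he (R := 0) (by rw [h0, norm_zero])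
    have hc0 : a = 0 := abs_eq_zero.1 (le_antisymm (by linarith) (abs_nonneg a))
    have hd0 : b = 0 := abs_eq_zero.1 (le_antisymm (by linarith) (abs_nonneg b))
    simp [kk, hc0, hd0]
  · set n := ‖a • e + b • f‖ with hn
    have hn0 : n ≠ 0 := norm_ne_zero_iff.2 h0
    have h1 : ‖(n⁻¹ * a) • e + (n⁻¹ * b) • f‖ = 1 := by
      rw [show (n⁻¹ * a) • e + (n⁻¹ * b) • f = n⁻¹ • (a • e + b • f) by module, norm_smul,
        norm_inv, Real.norm_of_nonneg (hn ▸ norm_nonneg _), ← hn, inv_mul_cancel₀ hn0]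
    rw [show a = n * (n⁻¹ * a) by field_simp, show b = n * (n⁻¹ * b) by field_simp, kk_mul,
      abs_mul, abs_of_nonneg (sq_nonneg n), mul_comm (10000000 * ρ)]
    exact mul_le_mul_of_nonneg_left (unit _ _ h1) (sq_nonneg _)

lemma br_left_unit (he : Orth e f) {a b : ℝ} (hu : ‖a • e + b • f‖ = 1) :
    |br (F e) (defect F e f a b)| ≤ 30000000 * (τ * s + s ^ 2) ∧
    |br (F (a • e + b • f)) (defect F e f a b)| ≤ 30000000 * (τ * s + s ^ 2) := by
  have hτ1 : τ ≤ 1 := hτ0.trans (by norm_num)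
  obtain ⟨ha, hb⟩ := coord_abs_le hX hτ hτ0 he hu.le
  have k1 := kk_unit hX hY hτ hτ0 hF hs hs1 hB he hu
  have k2 := kk_le hX hY hτ hτ0 hF hs hs1 hB he a b
  have k3 := kk_le hX hY hτ hτ0 hF hs hs1 hB he (1 + a) b
  rw [hu, one_pow, mul_one] at k2
  set v := a • e + b • f with hv
  set D := defect F e f a b with hD
  have bD : ‖D‖ ≤ 2 * s := defect_le hF hB he (by norm_num) (by linarith) (by linarith)
  have hFe : ‖F e‖ = 1 := (hF.norm e).trans he.1
  have hFv : ‖F v‖ = 1 := (hF.norm v).trans hu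
  have x := expand_sub_le hY hτ hτ1 (a := F e + F v) (b := D)
    (by linarith [norm_add_le (F e) (F v)]) (show (0:ℝ) < 2 * s by linarith) (by linarith) bD
  have e1 : ‖F e + F v - D‖ ^ 2 - ‖F e + F v‖ ^ 2 = kk F e f (1 + a) b := by
    rw [hF.add (he.1.trans hu.symm)]
    unfold kk
    rw [hv, hD]
    unfold defect
    congr 2 <;> congr 1 <;> module
  rw [e1] at x
  have l := br_add_left_le hY hτ hτ1 (a := F e) (a' := F v) (by linarith) (by linarith)
    (show (0:ℝ) < 2 * s by linarith) (by linarith) bD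
  have h4 : ‖(1 + a) • e + b • f‖ ^ 2 ≤ 4 := by
    have : ‖(1 + a) • e + b • f‖ ≤ 2 := by
      rw [show (1 + a) • e + b • f = e + v by rw [hv]; module]
      linarith [norm_add_le e v, he.1, hu]
    nlinarith [norm_nonneg ((1 + a) • e + b • f)]
  have hρ : 0 ≤ τ * s + s ^ 2 := by positivity
  have k3' := k3.trans (mul_le_mul_of_nonneg_left h4 (by positivity))
  have := mul_pos hτ hs
  have := sq_nonneg s
  rw [abs_le] at k1 k2 k3' x l
  constructor <;> rw [abs_le] <;> constructor <;> linarith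

lemma br_defect (he : Orth e f) {a b : ℝ} (ha : |a| ≤ 6) (hb : |b| ≤ 6) :
    |br (F e) (defect F e f a b)| ≤ 500000000 * (τ * s + s ^ 2) ∧
    |br (F f) (defect F e f a b)| ≤ 500000000 * (τ * s + s ^ 2) := by
  have hτ1 : τ ≤ 1 := hτ0.trans (by norm_num)
  have hρ : 0 ≤ τ * s + s ^ 2 := by positivity
  have key : ∀ e f : X, Orth e f → ∀ a b : ℝ, |a| ≤ 6 → |b| ≤ 6 →
      |br (F e) (defect F e f a b)| ≤ 500000000 * (τ * s + s ^ 2) := by
    intro e f he a b ha hb
    set n := ‖a • e + b • f‖ with hn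
    have hn12 : n ≤ 12 := by
      refine (norm_add_le _ _).trans ?_
      rw [norm_smul, norm_smul, he.1, he.2.1, Real.norm_eq_abs, Real.norm_eq_abs]
      linarith
    rcases eq_or_ne n 0 with h0 | h0
    · obtain ⟨hc, hd⟩ := coord_abs_le hX hτ hτ0 he (R := 0) (hn.symm.trans h0).le
      have hc0 : a = 0 := abs_eq_zero.1 (le_antisymm (by linarith) (abs_nonneg a))
      have hd0 : b = 0 := abs_eq_zero.1 (le_antisymm (by linarith) (abs_nonneg b))
      have : defect F e f 0 0 = 0 := by simpa using defect_mul hF (0 : ℝ) a b (e := e) (f := f)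
      rw [hc0, hd0, this, br_zero_right, abs_zero]
      positivity
    have hnn : 0 ≤ n := norm_nonneg _
    have h1 : ‖(n⁻¹ * a) • e + (n⁻¹ * b) • f‖ = 1 := by
      rw [show (n⁻¹ * a) • e + (n⁻¹ * b) • f = n⁻¹ • (a • e + b • f) by module, norm_smul,
        norm_inv, Real.norm_of_nonneg hnn, ← hn, inv_mul_cancel₀ h0]
    obtain ⟨c1, c2⟩ := coord_abs_le hX hτ hτ0 he h1.le
    have hd := defect_le hF hB he (A := 2) (by norm_num) (c1.trans (by norm_num))
      (c2.trans (by norm_num))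
    have u1 := (br_left_unit hX hY hτ hτ0 hF hs hs1 hB he h1).1
    set D := defect F e f (n⁻¹ * a) (n⁻¹ * b) with hD
    have hD2 : defect F e f a b = n • D := by
      rw [hD, ← defect_mul hF, ← mul_assoc, ← mul_assoc, mul_inv_cancel₀ h0, one_mul, one_mul]
    rw [hD2]
    have hnD : ‖n • D‖ ≤ 24 * s := by
      rw [norm_smul, Real.norm_of_nonneg hnn]
      calc n * ‖D‖ ≤ 12 * (2 * s) := mul_le_mul hn12 hd (norm_nonneg _) (by norm_num)
        _ = 24 * s := by ring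
    have r := br_smul_right hY hτ hτ1 (a := F e) (by rw [hF.norm, he.1]; norm_num)
      (r := n) (by rw [abs_of_nonneg hnn]; linarith) (show (0:ℝ) < 24 * s by linarith) (by linarith)
      (hd.trans (by linarith)) hnD
    have u2 : |n * br (F e) D| ≤ 12 * (30000000 * (τ * s + s ^ 2)) := by
      rw [abs_mul, abs_of_nonneg hnn]
      exact mul_le_mul hn12 u1 (abs_nonneg _) (by norm_num)
    have := mul_pos hτ hs
    have := sq_nonneg s
    rw [abs_le] at r u2 ⊢
    constructor <;> linarith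
  exact ⟨key e f he a b ha hb, defect_swap (F := F) a b ▸ key f e (orth_swap he) b a hb ha⟩

/-- Two-point almost isometry: the pair lemma. -/
lemma pair (u q : X) {a : ℝ} (hu : ‖u‖ = 1) (ha : |a| ≤ 4) (hq : ‖q‖ ≤ 4) :
    |‖a • F u + F q‖ ^ 2 - ‖a • u + q‖ ^ 2| ≤ 30000000000 * (τ * s + s ^ 2) := by
  have hτ1 : τ ≤ 1 := hτ0.trans (by norm_num)
  have hρ : 0 ≤ τ * s + s ^ 2 := by positivity
  by_cases hdep : ∃ r : ℝ, q = r • u
  · obtain ⟨r, rfl⟩ := hdep
    rw [hF.smul, ← add_smul, ← add_smul, norm_smul, norm_smul, hF.norm, sub_self, abs_zero]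
    positivity
  simp only [not_exists] at hdep
  obtain ⟨v, hv, c, d, hcd⟩ := exists_orth hu hdep
  subst hcd
  obtain ⟨hc, hd⟩ := coord_abs_le hX hτ hτ0 hv hq
  have hc6 : |c| ≤ 6 := by linarith
  have hd6 : |d| ≤ 6 := by linarith
  obtain ⟨b1, b2⟩ := br_defect hX hY hτ hτ0 hF hs hs1 hB hv hc6 hd6
  have k := kk_le hX hY hτ hτ0 hF hs hs1 hB hv (a + c) d
  set D := defect F u v c d with hD
  have bD : ‖D‖ ≤ 6 * s := defect_le hF hB hv (by norm_num) hc6 hd6
  have hFu : ‖F u‖ = 1 := (hF.norm u).trans hu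
  have hFv : ‖F v‖ = 1 := (hF.norm v).trans hv.2.1
  have hac : |a + c| ≤ 10 := by linarith [abs_add_le a c]
  have n1 : ‖(a + c) • F u‖ ≤ 10 := by rw [norm_smul, hFu, mul_one]; exact hac
  have n2 : ‖d • F v‖ ≤ 6 := by rw [norm_smul, hFv, mul_one]; exact hd6
  have s6 : (0 : ℝ) < 6 * s := by linarith
  have x := expand_le hY hτ hτ1 (a := (a + c) • F u + d • F v) (b := D)
    (by linarith [norm_add_le ((a + c) • F u) (d • F v)]) s6 (by linarith) bD
  have e1 : a • F u + F (c • u + d • v) = (a + c) • F u + d • F v + D := by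
    rw [hD]; unfold defect; module
  have e2 : a • u + (c • u + d • v) = (a + c) • u + d • v := by module
  rw [e1, e2]
  have l := br_add_left_le hY hτ hτ1 (a := (a + c) • F u) (a' := d • F v) (by linarith)
    (by linarith) s6 (by linarith) bD
  have m1 := br_smul_left_le hY hτ hτ1 (a := F u) (r := a + c) (by linarith) (by linarith)
    (by linarith) s6 (by linarith) bD
  have m2 := br_smul_left_le hY hτ hτ1 (a := F v) (r := d) (by linarith) (by linarith)
    (by linarith) s6 (by linarith) bD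
  have h64 : ‖(a + c) • u + d • v‖ ^ 2 ≤ 64 := by
    rw [← e2]
    have : ‖a • u + (c • u + d • v)‖ ≤ 8 := by
      refine (norm_add_le _ _).trans ?_
      rw [norm_smul, hu, mul_one, Real.norm_eq_abs]; linarith
    nlinarith [norm_nonneg (a • u + (c • u + d • v))]
  have k' := k.trans (mul_le_mul_of_nonneg_left h64 (by positivity))
  have c1 : |(a + c) * br (F u) D| ≤ 10 * (500000000 * (τ * s + s ^ 2)) := by
    rw [abs_mul]; exact mul_le_mul hac b1 (abs_nonneg _) (by norm_num)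
  have c2 : |d * br (F v) D| ≤ 6 * (500000000 * (τ * s + s ^ 2)) := by
    rw [abs_mul]; exact mul_le_mul hd6 b2 (abs_nonneg _) (by norm_num)
  have := mul_pos hτ hs
  have := sq_nonneg s
  unfold kk at k'
  rw [abs_le] at x l m1 m2 k' c1 c2 ⊢
  constructor <;> linarith

end Vale.Agent.P084.Near
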