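import Vale.Agent.P084.Near.Normal

/-!
# Spaces with von Neumann-Jordan constant close to one have the Mazur-Ulam property
-/

set_option linter.unusedSectionVars false

open Metric

namespace Vale.Agent.P084.Near

universe u v

variable {X : Type u} {Y : Type v} [NormedAddCommGroup X] [NormedSpace ℝ X]
  [NormedAddCommGroup Y] [NormedSpace ℝ Y]

lemma rhombus_source {δ : ℝ} (hδ : 0 ≤ δ)
    (h : ∀ u v : X, ‖u + v‖ ^ 2 + ‖u - v‖ ^ 2 ≤ 2 * (1 + δ) * (‖u‖ ^ 2 + ‖v‖ ^ 2)) :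
    Rhombus X (4 * δ) := by
  intro u v hu hv
  have h1 := h u v
  rw [hu, hv] at h1
  have h2 := h (u + v) (u - v)
  rw [show u + v + (u - v) = (2 : ℝ) • u by module, show u + v - (u - v) = (2 : ℝ) • v by module,
    norm_smul, norm_smul, hu, hv, Real.norm_ofNat] at h2
  set S := ‖u + v‖ ^ 2 + ‖u - v‖ ^ 2
  rw [abs_le]
  constructor
  · nlinarith
  · linarith

lemma rhombus_target {δ : ℝ} (hδ : 0 ≤ δ)
    (h : ∀ u v : X, ‖u + v‖ ^ 2 + ‖u - v‖ ^ 2 ≤ 2 * (1 + δ) * (‖u‖ ^ 2 + ‖v‖ ^ 2))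
    {g : X → Y} (hg : UnitMap g) : Rhombus Y (4 * δ + 8 * Real.sqrt δ) := by
  intro a b ha hb
  obtain ⟨u, hu, rfl⟩ := hg.surj a ha
  obtain ⟨v, hv, rfl⟩ := hg.surj b hb
  obtain ⟨c, hc, hgc⟩ := hg.surj (-g v) (by rw [norm_neg, hg.norm v hv])
  have h2 : ‖v - c‖ = 2 := by
    rw [← hg.dist v c hv hc, hgc, show g v - -g v = (2 : ℝ) • g v by module, norm_smul,
      hg.norm v hv, Real.norm_ofNat, mul_one]
  have hvc : ‖v + c‖ ≤ 2 * Real.sqrt δ := by
    have h1 := h v c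
    rw [h2, hv, hc] at h1
    refine le_of_pow_le_pow_left₀ two_ne_zero (by positivity) ?_
    rw [mul_pow, Real.sq_sqrt hδ]
    linarith
  have e1 : ‖g u + g v‖ = ‖u - c‖ := by rw [← hg.dist u c hu hc, hgc, sub_neg_eq_add]
  have d : |‖u - c‖ - ‖u + v‖| ≤ 2 * Real.sqrt δ := by
    refine (abs_norm_sub_norm_le _ _).trans ?_
    rwa [show u - c - (u + v) = -(v + c) by abel, norm_neg]
  have r := rhombus_source hδ h u v hu hv
  have t1 : ‖u - c‖ ≤ 2 := by linarith [norm_sub_le u c]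
  have t2 : ‖u + v‖ ≤ 2 := by linarith [norm_add_le u v]
  have hs := Real.sqrt_nonneg δ
  rw [e1, hg.dist u v hu hv]
  have sq : |‖u - c‖ ^ 2 - ‖u + v‖ ^ 2| ≤ 8 * Real.sqrt δ := by
    rw [sq_sub_sq, abs_mul, abs_of_nonneg (by positivity : 0 ≤ ‖u - c‖ + ‖u + v‖)]
    nlinarith [abs_nonneg (‖u - c‖ - ‖u + v‖)]
  rw [abs_le] at r sq ⊢
  constructor <;> linarith

/-- The conclusion for fixed spaces. -/
lemma extends_linearly {τ : ℝ} (hX : IsNear X (τ ^ 2)) (hY : IsNear Y (τ ^ 2)) (hτ : 0 < τ)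
    (hτ0 : τ ≤ 1 / 10 ^ 15) {g : X → Y} (hg : UnitMap g) :
    ∃ T : X ≃ₗᵢ[ℝ] Y, ∀ x, ‖x‖ = 1 → T x = g x := by
  have hodd := unitMap_odd hX hY hτ hτ0 hg
  set F : X → Y := fun p => ‖p‖ • g (‖p‖⁻¹ • p) with hFdef
  have hu : ∀ p : X, p ≠ 0 → ‖‖p‖⁻¹ • p‖ = 1 := fun p hp => by simp [norm_smul, hp]
  have hFu : ∀ x, ‖x‖ = 1 → F x = g x := fun x hx => by simp [hFdef, hx]
  have hF : SphereMap F := by
    constructor
    · intro r p
      rcases eq_or_ne p 0 with rfl | hp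
      · simp [hFdef]
      rcases lt_trichotomy r 0 with hr | rfl | hr
      · simp only [hFdef]
        rw [norm_smul, Real.norm_of_nonpos hr.le, smul_smul,
          show (-r * ‖p‖)⁻¹ * r = -(‖p‖⁻¹) by field_simp [hr.ne],
          neg_smul, hodd _ (hu p hp), smul_neg, smul_smul, ← neg_smul, neg_mul, neg_neg]
      · simp [hFdef]
      · simp only [hFdef]
        rw [norm_smul, Real.norm_of_nonneg hr.le, smul_smul,
          show (r * ‖p‖)⁻¹ * r = ‖p‖⁻¹ by field_simp [hr.ne'], smul_smul]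
    · intro p
      rcases eq_or_ne p 0 with rfl | hp
      · simp [hFdef]
      · simp [hFdef, norm_smul, hg.norm _ (hu p hp)]
    · intro p q hpq
      rcases eq_or_ne p 0 with rfl | hp
      · have : q = 0 := norm_eq_zero.1 (by rw [← hpq, norm_zero])
        simp [hFdef, this]
      have hq : q ≠ 0 := fun h => hp (norm_eq_zero.1 (by rw [hpq, h, norm_zero]))
      simp only [hFdef]
      rw [← hpq, ← smul_sub, norm_smul, hg.dist _ _ (hu p hp) (hpq ▸ hu q hq), ← smul_sub,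
        norm_smul, norm_inv, norm_norm, ← mul_assoc, mul_inv_cancel₀ (norm_ne_zero_iff.2 hp),
        one_mul]
    · intro y
      rcases eq_or_ne y 0 with rfl | hy
      · exact ⟨0, by simp [hFdef]⟩
      obtain ⟨u, hu1, hgu⟩ := hg.surj (‖y‖⁻¹ • y) (by simp [norm_smul, hy])
      refine ⟨‖y‖ • u, ?_⟩
      simp only [hFdef]
      rw [norm_smul, norm_norm, hu1, mul_one, inv_smul_smul₀ (norm_ne_zero_iff.2 hy), hgu,
        smul_inv_smul₀ (norm_ne_zero_iff.2 hy)]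
  let L : X →ₗ[ℝ] Y :=
    { toFun := F, map_add' := map_add hX hY hτ hτ0 hF, map_smul' := hF.smul }
  let Li : X →ₗᵢ[ℝ] Y := { toLinearMap := L, norm_map' := hF.norm }
  refine ⟨LinearIsometryEquiv.ofSurjective Li hF.surj, fun x hx => ?_⟩
  exact hFu x hx

/-- Tingley's problem has a positive answer when one space has von Neumann-Jordan constant close
to one. -/
theorem exists_mazurUlam_radius :
    ∃ δ : ℝ, 0 < δ ∧ ∀ (X : Type u) (Y : Type v) [NormedAddCommGroup X] [NormedSpace ℝ X]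
      [NormedAddCommGroup Y] [NormedSpace ℝ Y],
      (∀ u w : X, ‖u + w‖ ^ 2 + ‖u - w‖ ^ 2 ≤ 2 * (1 + δ) * (‖u‖ ^ 2 + ‖w‖ ^ 2)) →
      ∀ f : sphere (0 : X) 1 → sphere (0 : Y) 1, Isometry f → Function.Surjective f →
        ∃ T : X ≃ₗᵢ[ℝ] Y, ∀ x : sphere (0 : X) 1, T x = f x := by
  set τ : ℝ := 1 / 10 ^ 15 with hτdef
  have hτ : 0 < τ := by positivity
  obtain ⟨εX, hεX, HX⟩ := exists_isNear.{u} (τ ^ 2) (by positivity)
  obtain ⟨εY, hεY, HY⟩ := exists_isNear.{v} (τ ^ 2) (by positivity)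
  set δ := min (min (1 / 4) (εX / 4)) ((εY / 20) ^ 2) with hδdef
  have hδ : 0 < δ := by positivity
  refine ⟨δ, hδ, fun X Y _ _ _ _ h f hf hfs => ?_⟩
  classical
  let g : X → Y := fun x => if hx : ‖x‖ = 1 then (f ⟨x, by simpa using hx⟩ : Y) else 0
  have hgx : ∀ x : sphere (0 : X) 1, g x = f x := fun x => by
    have hx : ‖(x : X)‖ = 1 := by simpa using x.2
    simp only [g, dif_pos hx]
  have hg : UnitMap g := by
    constructor
    · intro x hx
      rw [hgx ⟨x, by simpa using hx⟩]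
      simpa using (f ⟨x, by simpa using hx⟩).2
    · intro x y hx hy
      have hx' : x ∈ sphere (0 : X) 1 := by simpa using hx
      have hy' : y ∈ sphere (0 : X) 1 := by simpa using hy
      have hd : dist (f ⟨x, hx'⟩ : Y) (f ⟨y, hy'⟩ : Y) = dist x y := hf.dist_eq _ _
      rw [hgx ⟨x, hx'⟩, hgx ⟨y, hy'⟩]
      simpa only [dist_eq_norm] using hd
    · intro y hy
      obtain ⟨x, hx⟩ := hfs ⟨y, by simpa using hy⟩
      exact ⟨x, by simpa using x.2, by rw [hgx, hx]⟩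
  have hRX : Rhombus X εX := fun a b ha hb => (rhombus_source hδ.le h a b ha hb).trans (by
    have : δ ≤ εX / 4 := (min_le_left _ _).trans (min_le_right _ _)
    linarith)
  have hRY : Rhombus Y εY := fun a b ha hb => (rhombus_target hδ.le h hg a b ha hb).trans (by
    have h1 : δ ≤ 1 / 4 := (min_le_left _ _).trans (min_le_left _ _)
    have h2 : Real.sqrt δ ≤ εY / 20 := by
      rw [Real.sqrt_le_left (by positivity)]
      exact min_le_right _ _
    nlinarith [Real.sqrt_nonneg δ, Real.sq_sqrt hδ.le])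
  obtain ⟨T, hT⟩ := extends_linearly (HX X hRX) (HY Y hRY) hτ le_rfl hg
  exact ⟨T, fun x => by rw [hT _ (by simpa using x.2), hgx]⟩

end Vale.Agent.P084.Near
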