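import Vale.Agent.P084.Near.InPlane

/-!
# The normal part of the defect, and the conclusion that the defect vanishes
-/

set_option linter.unusedSectionVars false

namespace Vale.Agent.P084.Near

variable {X Y : Type*} [NormedAddCommGroup X] [NormedSpace ℝ X]
  [NormedAddCommGroup Y] [NormedSpace ℝ Y]

variable {F : X → Y} {e f : X} {τ s : ℝ}

section steps

variable (hX : IsNear X (τ ^ 2)) (hY : IsNear Y (τ ^ 2)) (hτ : 0 < τ) (hτ0 : τ ≤ 1 / 10 ^ 15)
  (hF : SphereMap F) (hs : 0 < s) (hs1 : s ≤ 1 / 100) (hB : Bd F s)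

include hX hY hτ hτ0 hF hs hs1 hB

lemma br_defect_self (he : Orth e f) {a b : ℝ} (ha : |a| ≤ 1) (hb : |b| ≤ 1) :
    |br (F (a • e + b • f)) (defect F e f a b)| ≤ 600000000 * (τ * s + s ^ 2) := by
  have hτ1 : τ ≤ 1 := hτ0.trans (by norm_num)
  have k := kk_le hX hY hτ hτ0 hF hs hs1 hB he a b
  set p := a • e + b • f with hp
  have hp2 : ‖p‖ ≤ 2 := by
    refine (norm_add_le _ _).trans ?_
    rw [norm_smul, norm_smul, he.1, he.2.1, Real.norm_eq_abs, Real.norm_eq_abs]
    linarith
  have hd := defect_le hF hB he one_pos ha hb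
  rw [one_mul] at hd
  have x := expand_sub_le hY hτ hτ1 (a := F p) (b := defect F e f a b)
    (by rw [hF.norm]; linarith) hs (by linarith) hd
  have e1 : ‖F p - defect F e f a b‖ ^ 2 - ‖F p‖ ^ 2 = kk F e f a b := by
    rw [hF.norm p, hp]
    unfold kk defect
    congr 3
    abel
  rw [e1] at x
  have h4 : ‖p‖ ^ 2 ≤ 4 := by nlinarith [norm_nonneg p]
  have hρ : 0 ≤ τ * s + s ^ 2 := by positivity
  have k' := k.trans (mul_le_mul_of_nonneg_left h4 (by positivity))
  have := mul_pos hτ hs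
  have := sq_nonneg s
  rw [abs_le] at x k' ⊢
  constructor <;> linarith

/-- The quantity `G(a,b,t)`. -/
lemma group_one (he : Orth e f) {a b : ℝ} (ha : |a| ≤ 1) (hb : |b| ≤ 1) {x : X} (hx : ‖x‖ = 1)
    {t : ℝ} (ht : |t| ≤ 1) :
    |‖t • F x + a • F e + b • F f‖ ^ 2 - ‖t • x + a • e + b • f‖ ^ 2
      + 2 * t * br (F x) (defect F e f a b)| ≤ 40000000000 * (τ * s + s ^ 2) := by
  have hτ1 : τ ≤ 1 := hτ0.trans (by norm_num)
  set p := a • e + b • f with hp
  have hp2 : ‖p‖ ≤ 2 := by
    refine (norm_add_le _ _).trans ?_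
    rw [norm_smul, norm_smul, he.1, he.2.1, Real.norm_eq_abs, Real.norm_eq_abs]
    linarith
  have P := pair hX hY hτ hτ0 hF hs hs1 hB x p hx (a := t) (by linarith) (hp2.trans (by norm_num))
  have S := br_defect_self hX hY hτ hτ0 hF hs hs1 hB he ha hb
  rw [← hp] at S
  have hd := defect_le hF hB he one_pos ha hb
  rw [one_mul] at hd
  set D := defect F e f a b with hD
  have hFx : ‖F x‖ = 1 := (hF.norm x).trans hx
  have n1 : ‖t • F x‖ ≤ 1 := by rw [norm_smul, hFx, mul_one]; exact ht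
  have n2 : ‖F p‖ ≤ 2 := by rw [hF.norm]; exact hp2
  have E := expand_sub_le hY hτ hτ1 (a := t • F x + F p) (b := D)
    (by linarith [norm_add_le (t • F x) (F p)]) hs (by linarith) hd
  have e1 : t • F x + F p - D = t • F x + a • F e + b • F f := by
    rw [hD, hp]; unfold defect; abel
  have e2 : t • x + p = t • x + a • e + b • f := by rw [hp]; abel
  rw [e1] at E
  rw [e2] at P
  have l := br_add_left_le hY hτ hτ1 (a := t • F x) (a' := F p) (by linarith) (by linarith) hs
    (by linarith) hd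
  have m := br_smul_left_le hY hτ hτ1 (a := F x) (r := t) (by linarith) (by linarith)
    (by linarith) hs (by linarith) hd
  have := mul_pos hτ hs
  have := sq_nonneg s
  rw [abs_le] at P S E l m ⊢
  constructor <;> linarith

lemma group_two (he : Orth e f) {a b : ℝ} (ha : |a| ≤ 1) (hb : |b| ≤ 1) {x : X} (hx : ‖x‖ = 1)
    {t : ℝ} (ht : |t| ≤ 1) :
    |‖t • F x + a • F e + b • F f‖ ^ 2 - ‖t • x + a • e + b • f‖ ^ 2
      + 2 * a * br (F e) (F (b • f + t • x) - b • F f - t • F x)|
      ≤ 70000000000 * (τ * s + s ^ 2) := by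
  have hτ1 : τ ≤ 1 := hτ0.trans (by norm_num)
  set q := b • f + t • x with hq
  have hq2 : ‖q‖ ≤ 2 := by
    refine (norm_add_le _ _).trans ?_
    rw [norm_smul, norm_smul, hx, he.2.1, Real.norm_eq_abs, Real.norm_eq_abs]
    linarith
  set D := F q - b • F f - t • F x with hD
  have hd : ‖D‖ ≤ 6 * s := by
    by_cases hdep : ∃ r : ℝ, x = r • f
    · obtain ⟨r, hr⟩ := hdep
      have : D = 0 := by
        rw [hD, hq, hr, smul_smul, ← add_smul, hF.smul, hF.smul]; module
      rw [this, norm_zero]; positivity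
    simp only [not_exists] at hdep
    obtain ⟨g, hg, c, d, hcd⟩ := exists_orth he.2.1 hdep
    have hxn : ‖c • f + d • g‖ ≤ 1 := by rw [← hcd, hx]
    obtain ⟨hc, hd⟩ := coord_abs_le hX hτ hτ0 hg hxn
    have h1 : |b + t * c| ≤ 3 := by
      refine (abs_add_le _ _).trans ?_
      rw [abs_mul]; nlinarith [abs_nonneg t, abs_nonneg c]
    have h2 : |t * d| ≤ 3 := by rw [abs_mul]; nlinarith [abs_nonneg t, abs_nonneg d]
    have d1 := defect_le hF hB hg (by norm_num) h1 h2
    have d2 := defect_le hF hB hg (A := 3) (a := c) (b := d) (by norm_num) (by linarith)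
      (by linarith)
    have : D = defect F f g (b + t * c) (t * d) - t • defect F f g c d := by
      rw [hD, hq, hcd]
      unfold defect
      rw [show b • f + t • (c • f + d • g) = (b + t * c) • f + (t * d) • g by module]
      module
    rw [this]
    refine (norm_sub_le _ _).trans ?_
    rw [norm_smul, Real.norm_eq_abs]
    nlinarith [norm_nonneg (defect F f g c d), abs_nonneg t]
  have s6 : (0 : ℝ) < 6 * s := by linarith
  have P := pair hX hY hτ hτ0 hF hs hs1 hB e q he.1 (a := a) (by linarith) (hq2.trans (by norm_num))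
  have P' := pair hX hY hτ hτ0 hF hs hs1 hB f (t • x) he.2.1 (a := b) (by linarith)
    (by rw [norm_smul, hx, mul_one, Real.norm_eq_abs]; linarith)
  rw [hF.smul, ← hq] at P'
  have hFe : ‖F e‖ = 1 := (hF.norm e).trans he.1
  have n1 : ‖a • F e‖ ≤ 1 := by rw [norm_smul, hFe, mul_one]; exact ha
  have n2 : ‖F q‖ ≤ 2 := by rw [hF.norm]; exact hq2
  have E := expand_sub_le hY hτ hτ1 (a := a • F e + F q) (b := D)
    (by linarith [norm_add_le (a • F e) (F q)]) s6 (by linarith) hd
  have E' := expand_sub_le hY hτ hτ1 (a := F q) (b := D) (by linarith) s6 (by linarith) hd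
  have e1 : a • F e + F q - D = t • F x + a • F e + b • F f := by rw [hD]; abel
  have e1' : F q - D = b • F f + t • F x := by rw [hD]; abel
  have e2 : a • e + q = t • x + a • e + b • f := by rw [hq]; abel
  rw [e1] at E
  rw [e1', hF.norm q] at E'
  rw [e2] at P
  have l := br_add_left_le hY hτ hτ1 (a := a • F e) (a' := F q) (by linarith) (by linarith) s6
    (by linarith) hd
  have m := br_smul_left_le hY hτ hτ1 (a := F e) (r := a) (by linarith) (by linarith)
    (by linarith) s6 (by linarith) hd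
  have := mul_pos hτ hs
  have := sq_nonneg s
  rw [abs_le] at P P' E E' l m ⊢
  constructor <;> linarith

/-- The step of the iteration. -/
lemma defect_step : Bd F (3000000000000 * (τ * s + s ^ 2)) := by
  have hτ1 : τ ≤ 1 := hτ0.trans (by norm_num)
  intro e f he a b ha hb
  set ρ := τ * s + s ^ 2 with hρdef
  have hρ : 0 ≤ ρ := by positivity
  have hρ' : τ * s ≤ ρ := le_add_of_nonneg_right (sq_nonneg s)
  rcases eq_or_ne (defect F e f a b) 0 with h0 | h0
  · rw [h0, norm_zero]; positivity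
  obtain ⟨x, hx⟩ := hF.surj (‖defect F e f a b‖⁻¹ • defect F e f a b)
  have hx1 : ‖x‖ = 1 := by rw [← hF.norm, hx]; simp [norm_smul, h0]
  have one : |(1 : ℝ)| ≤ 1 := by norm_num
  let c : ℝ → ℝ → ℝ := fun a b => br (F x) (defect F e f a b)
  have rel : ∀ a b : ℝ, |a| ≤ 1 → |b| ≤ 1 →
      |c a b - a * c 1 b| ≤ 120000000000 * ρ ∧ |c a b - b * c a 1| ≤ 120000000000 * ρ := by
    intro a b ha hb
    have g1 := group_one hX hY hτ hτ0 hF hs hs1 hB he ha hb hx1 one
    have g1' := group_one hX hY hτ hτ0 hF hs hs1 hB he one hb hx1 one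
    have g1'' := group_one hX hY hτ hτ0 hF hs hs1 hB he ha one hx1 one
    have g2 := group_two hX hY hτ hτ0 hF hs hs1 hB he ha hb hx1 one
    have g2' := group_two hX hY hτ hτ0 hF hs hs1 hB he one hb hx1 one
    have g3 := group_two hX hY hτ hτ0 hF hs hs1 hB (orth_swap he) hb ha hx1 one
    have g3' := group_two hX hY hτ hτ0 hF hs hs1 hB (orth_swap he) one ha hx1 one
    set w := br (F e) (F (b • f + (1:ℝ) • x) - b • F f - (1:ℝ) • F x) with hw
    set w' := br (F f) (F (a • e + (1:ℝ) • x) - a • F e - (1:ℝ) • F x) with hw'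
    rw [add_right_comm _ (b • F f), add_right_comm _ (b • f)] at g3
    rw [add_right_comm _ ((1:ℝ) • F f), add_right_comm _ ((1:ℝ) • f)] at g3'
    have a1 : |c a b - a * w| ≤ 55000000000 * ρ := by
      rw [abs_le] at g1 g2 ⊢
      constructor <;> linarith
    have a2 : |a * (c 1 b - w)| ≤ 55000000000 * ρ := by
      rw [abs_mul]
      refine (mul_le_of_le_one_left (abs_nonneg _) ha).trans ?_
      rw [abs_le] at g1' g2' ⊢
      constructor <;> linarith
    have a3 : |c a b - b * w'| ≤ 55000000000 * ρ := by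
      rw [abs_le] at g1 g3 ⊢
      constructor <;> linarith
    have a4 : |b * (c a 1 - w')| ≤ 55000000000 * ρ := by
      rw [abs_mul]
      refine (mul_le_of_le_one_left (abs_nonneg _) hb).trans ?_
      rw [abs_le] at g1'' g3' ⊢
      constructor <;> linarith
    rw [abs_le] at a1 a2 a3 a4
    constructor <;> rw [abs_le] <;> constructor <;> linarith
  have quad : ∀ a b : ℝ, |a| ≤ 1 → |b| ≤ 1 → |c a b - a * b * c 1 1| ≤ 240000000000 * ρ := by
    intro a b ha hb
    have r1 := (rel a b ha hb).1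
    have r2 : |a * (c 1 b - b * c 1 1)| ≤ 120000000000 * ρ := by
      rw [abs_mul]
      exact (mul_le_of_le_one_left (abs_nonneg _) ha).trans (rel 1 b one hb).2
    rw [abs_le] at r1 r2 ⊢
    constructor <;> linarith
  have half : |(1 / 2 : ℝ)| ≤ 1 := by norm_num
  have h11 : |c 1 1| ≤ 1000000000000 * ρ := by
    have q := quad (1 / 2) (1 / 2) half half
    have hd := defect_le hF hB he one_pos one one
    rw [one_mul] at hd
    have hd' : ‖(1 / 2 : ℝ) • defect F e f 1 1‖ ≤ s := by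
      rw [norm_smul]
      norm_num
      linarith [norm_nonneg (defect F e f 1 1)]
    have r := br_smul_right hY hτ hτ1 (a := F x) (by rw [hF.norm, hx1]; norm_num) (r := 1 / 2)
      (by norm_num) hs (by linarith) hd hd'
    rw [← defect_mul hF, mul_one] at r
    change |c (1 / 2) (1 / 2) - 1 / 2 * c 1 1| ≤ _ at r
    rw [abs_le] at q r ⊢
    constructor <;> linarith
  have q := quad a b ha hb
  have hab : |a * b * c 1 1| ≤ 1000000000000 * ρ := by
    rw [abs_mul, abs_mul]
    exact (mul_le_of_le_one_left (abs_nonneg _)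
      (mul_le_one₀ ha (abs_nonneg _) hb)).trans h11
  have hz : c a b = ‖defect F e f a b‖ := by
    change br (F x) _ = _
    rw [hx, br_unit_self h0]
  rw [abs_le] at q hab
  linarith

end steps

variable (hX : IsNear X (τ ^ 2)) (hY : IsNear Y (τ ^ 2)) (hτ : 0 < τ) (hτ0 : τ ≤ 1 / 10 ^ 15)
  (hF : SphereMap F)

include hX hY hτ hτ0 hF

lemma defect_init : Bd F (100 * τ) := by
  have hτ1 : τ ≤ 1 := hτ0.trans (by norm_num)
  have η0 : 0 ≤ τ ^ 2 := sq_nonneg τ
  intro e f he a b ha hb
  set p := a • e + b • f with hp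
  set L := a • F e + b • F f with hL
  have hFo := hF.orth he
  have hE : a ^ 2 + b ^ 2 ≤ 2 := by nlinarith [abs_le.1 ha, abs_le.1 hb]
  have hp2 : ‖p‖ ≤ 2 := by
    refine (norm_add_le _ _).trans ?_
    rw [norm_smul, norm_smul, he.1, he.2.1, Real.norm_eq_abs, Real.norm_eq_abs]
    linarith
  have hp4 : ‖p‖ ^ 2 ≤ 4 := by nlinarith [norm_nonneg p]
  have ha2 : a ^ 2 ≤ 1 := by nlinarith [abs_le.1 ha]
  have hb2 : b ^ 2 ≤ 1 := by nlinarith [abs_le.1 hb]
  have hL2 : ‖L‖ ≤ 2 := by
    refine (norm_add_le _ _).trans ?_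
    rw [norm_smul, norm_smul, hF.norm, hF.norm, he.1, he.2.1, Real.norm_eq_abs, Real.norm_eq_abs]
    linarith
  have hFp : ‖F p‖ = ‖p‖ := hF.norm p
  have qL := hY.plane _ _ hFo.1 hFo.2.1 hFo.2.2 a b
  have qp := hX.plane e f he.1 he.2.1 he.2.2 a b
  rw [← hL] at qL
  rw [← hp] at qp
  have mE := mul_le_mul_of_nonneg_left hE η0
  -- the bracket of `F p` with a basis vector
  have key : ∀ g : X, ‖g‖ = 1 → |br (F p) (F g) - br p g| ≤ 40 * τ ^ 2 := by
    intro g hg
    rcases eq_or_ne p 0 with h0 | h0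
    · have : F p = 0 := by rw [h0]; simpa using hF.smul 0 (0 : X)
      rw [this, h0, br_comm, br_zero_right, br_comm, br_zero_right, sub_self, abs_zero]
      positivity
    set n := ‖p‖ with hn
    have hn0 : n ≠ 0 := norm_ne_zero_iff.2 h0
    have hu : ‖n⁻¹ • p‖ = 1 := by
      rw [norm_smul, norm_inv, Real.norm_of_nonneg (hn ▸ norm_nonneg _), ← hn, inv_mul_cancel₀ hn0]
    have e1 := hY.lin n (F (n⁻¹ • p)) (F g)
    have e2 := hX.lin n (n⁻¹ • p) g
    rw [← hF.smul, smul_inv_smul₀ hn0, hF.br_eq (hu.trans hg.symm), hF.norm, hF.norm, hu, hg] at e1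
    rw [smul_inv_smul₀ hn0, hu, hg] at e2
    have := mul_le_mul_of_nonneg_left (show (1 + n ^ 2) * (1 ^ 2 + 1 ^ 2) ≤ 20 by nlinarith) η0
    rw [abs_le] at e1 e2 ⊢
    constructor <;> linarith
  have c1 : |br p e - a| ≤ 2 * τ ^ 2 := by
    have p1 := hX.plane e f he.1 he.2.1 he.2.2 (a + 1) b
    have p2 := hX.plane e f he.1 he.2.1 he.2.2 (a - 1) b
    rw [show (a + 1) • e + b • f = p + e by rw [hp]; module] at p1
    rw [show (a - 1) • e + b • f = p - e by rw [hp]; module] at p2
    unfold br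
    rw [abs_le] at p1 p2 ⊢
    constructor <;> linarith
  have c2 : |br p f - b| ≤ 2 * τ ^ 2 := by
    have p1 := hX.plane e f he.1 he.2.1 he.2.2 a (b + 1)
    have p2 := hX.plane e f he.1 he.2.1 he.2.2 a (b - 1)
    rw [show a • e + (b + 1) • f = p + f by rw [hp]; module] at p1
    rw [show a • e + (b - 1) • f = p - f by rw [hp]; module] at p2
    unfold br
    rw [abs_le] at p1 p2 ⊢
    constructor <;> linarith
  have d0 := br_big_add_right hY η0 (F p) (a • F e) (b • F f)
  have d1 := hY.lin a (F e) (F p)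
  have d2 := hY.lin b (F f) (F p)
  rw [norm_smul, norm_smul, mul_pow, mul_pow, hFo.1, hFo.2.1, hFp, Real.norm_eq_abs,
    Real.norm_eq_abs, sq_abs, sq_abs, ← hL] at d0
  rw [br_comm (a • F e), br_comm (F e), hFp, hFo.1] at d1
  rw [br_comm (b • F f), br_comm (F f), hFp, hFo.2.1] at d2
  have m0 := mul_le_mul_of_nonneg_left
    (show ‖p‖ ^ 2 + a ^ 2 * 1 ^ 2 + b ^ 2 * 1 ^ 2 ≤ 6 by linarith) η0
  have m1 := mul_le_mul_of_nonneg_left
    (show (1 + a ^ 2) * (1 ^ 2 + ‖p‖ ^ 2) ≤ 10 by nlinarith) η0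
  have m2 := mul_le_mul_of_nonneg_left
    (show (1 + b ^ 2) * (1 ^ 2 + ‖p‖ ^ 2) ≤ 10 by nlinarith) η0
  have k1 : |a * (br (F p) (F e) - a)| ≤ 42 * τ ^ 2 := by
    rw [abs_mul]
    refine (mul_le_of_le_one_left (abs_nonneg _) ha).trans ?_
    have := key e he.1
    rw [abs_le] at this c1 ⊢
    constructor <;> linarith
  have k2 : |b * (br (F p) (F f) - b)| ≤ 42 * τ ^ 2 := by
    rw [abs_mul]
    refine (mul_le_of_le_one_left (abs_nonneg _) hb).trans ?_
    have := key f he.2.1
    rw [abs_le] at this c2 ⊢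
    constructor <;> linarith
  have par := hY.par (F p) L
  rw [hFp] at par
  have hD : defect F e f a b = F p - L := by unfold defect; rw [← hp, hL]; abel
  rw [hD]
  have mP := mul_le_mul_of_nonneg_left
    (show ‖p‖ ^ 2 + ‖L‖ ^ 2 ≤ 8 by nlinarith [norm_nonneg L]) η0
  have hbr : ‖F p + L‖ ^ 2 - ‖F p - L‖ ^ 2 = 4 * br (F p) L := by rw [br]; ring
  have main : ‖F p - L‖ ^ 2 ≤ (100 * τ) ^ 2 := by
    rw [abs_le] at qL qp d0 d1 d2 k1 k2 par
    linarith
  exact le_of_pow_le_pow_left₀ two_ne_zero (by positivity) main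

lemma defect_zero (he : Orth e f) (a b : ℝ) : defect F e f a b = 0 := by
  have iter : ∀ n : ℕ, Bd F (100 * τ * (1 / 2) ^ n) := by
    intro n
    induction n with
    | zero => simpa using defect_init hX hY hτ hτ0 hF
    | succ n ih =>
      have hp : ((1 : ℝ) / 2) ^ n ≤ 1 := pow_le_one₀ (by norm_num) (by norm_num)
      have hp0 : (0 : ℝ) < (1 / 2) ^ n := by positivity
      intro e f he a b ha hb
      refine (defect_step hX hY hτ hτ0 hF (by positivity)
        (by norm_num at hτ0; nlinarith) ih e f he a b ha hb).trans ?_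
      rw [pow_succ ((1 : ℝ) / 2) n, sq]
      generalize ((1 : ℝ) / 2) ^ n = q at hp hp0 ⊢
      norm_num at hτ0
      have := mul_pos hτ hp0
      have := mul_le_mul_of_nonneg_left hτ0 (mul_pos hτ hp0).le
      have := mul_le_mul_of_nonneg_left hp (mul_pos hτ (mul_pos hτ hp0)).le
      linarith
  have h : ∀ a b : ℝ, |a| ≤ 1 → |b| ≤ 1 → defect F e f a b = 0 := by
    intro a b ha hb
    have lim : Filter.Tendsto (fun n : ℕ => 100 * τ * (1 / 2 : ℝ) ^ n) Filter.atTop
        (nhds (100 * τ * 0)) :=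
      (tendsto_pow_atTop_nhds_zero_of_lt_one (by norm_num) (by norm_num)).const_mul _
    rw [mul_zero] at lim
    exact norm_le_zero_iff.1 (ge_of_tendsto' lim fun n => iter n e f he a b ha hb)
  set A := |a| + |b| + 1 with hA
  have hA0 : 0 < A := by positivity
  have h1 : |a / A| ≤ 1 := by
    rw [abs_div, abs_of_pos hA0, div_le_one hA0]; linarith [abs_nonneg b]
  have h2 : |b / A| ≤ 1 := by
    rw [abs_div, abs_of_pos hA0, div_le_one hA0]; linarith [abs_nonneg a]
  rw [show a = A * (a / A) by field_simp, show b = A * (b / A) by field_simp, defect_mul hF,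
    h _ _ h1 h2, smul_zero]

lemma map_add (p q : X) : F (p + q) = F p + F q := by
  have hF0 : F 0 = 0 := by simpa using hF.smul 0 (0 : X)
  rcases eq_or_ne p 0 with rfl | hp
  · rw [zero_add, hF0, zero_add]
  by_cases hdep : ∃ r : ℝ, q = r • p
  · obtain ⟨r, rfl⟩ := hdep
    rw [show p + r • p = (1 + r) • p by module, hF.smul, hF.smul]
    module
  simp only [not_exists] at hdep
  have hn : ‖p‖ ≠ 0 := norm_ne_zero_iff.2 hp
  set e := ‖p‖⁻¹ • p with he
  have he1 : ‖e‖ = 1 := by simp [he, norm_smul, hp]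
  have hpe : p = ‖p‖ • e := (smul_inv_smul₀ hn p).symm
  obtain ⟨f, hf, c, d, hcd⟩ := exists_orth (w := q) he1 fun r hr =>
    hdep (r * ‖p‖⁻¹) (by rw [hr, he, smul_smul])
  have h1 := defect_zero hX hY hτ hτ0 hF hf (‖p‖ + c) d
  have h2 := defect_zero hX hY hτ hτ0 hF hf c d
  unfold defect at h1 h2
  rw [hcd, hpe, show ‖p‖ • e + (c • e + d • f) = (‖p‖ + c) • e + d • f by module, hF.smul]
  rw [sub_sub, sub_eq_zero] at h1 h2
  rw [h1, h2]
  module

end Vale.Agent.P084.Near
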