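import Vale.Agent.P084.Near.Bracket

/-!
# The rhombus identity up to an error makes every plane nearly Euclidean
-/

set_option linter.unusedSectionVars false

open Real

namespace Vale.Agent.P084.Near

variable {X : Type*} [NormedAddCommGroup X] [NormedSpace ℝ X]

/-- The rhombus identity up to `ε`. -/
def Rhombus (X : Type*) [NormedAddCommGroup X] [NormedSpace ℝ X] (ε : ℝ) : Prop :=
  ∀ u v : X, ‖u‖ = 1 → ‖v‖ = 1 → |‖u + v‖ ^ 2 + ‖u - v‖ ^ 2 - 4| ≤ ε

/-- Two unit vectors which are isosceles orthogonal. -/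
def Orth (e f : X) : Prop := ‖e‖ = 1 ∧ ‖f‖ = 1 ∧ ‖e + f‖ = ‖e - f‖

lemma exists_orth {e w : X} (he : ‖e‖ = 1) (hw : ∀ r : ℝ, w ≠ r • e) :
    ∃ f, Orth e f ∧ ∃ a b : ℝ, w = a • e + b • f := by
  let v : ℝ → X := fun t => Real.cos (π * t) • e + Real.sin (π * t) • w
  have hv : ∀ t, v t ≠ 0 := by
    intro t h
    rcases eq_or_ne (Real.sin (π * t)) 0 with h0 | h0
    · simp only [v, h0, zero_smul, add_zero, smul_eq_zero] at h
      rcases h with h | h
      · nlinarith [Real.sin_sq_add_cos_sq (π * t)]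
      · simp [h] at he
    · refine hw (-(Real.cos (π * t) / Real.sin (π * t))) ?_
      have : Real.sin (π * t) • w = -(Real.cos (π * t) • e) :=
        eq_neg_of_add_eq_zero_right h
      calc w = (Real.sin (π * t))⁻¹ • Real.sin (π * t) • w := (inv_smul_smul₀ h0 w).symm
        _ = _ := by rw [this, smul_neg, smul_smul, ← neg_smul, div_eq_inv_mul]
  let g : ℝ → ℝ := fun t => ‖e + ‖v t‖⁻¹ • v t‖ - ‖e - ‖v t‖⁻¹ • v t‖
  have hvc : Continuous v := by fun_prop
  have hgc : Continuous g := by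
    have : Continuous fun t => ‖v t‖⁻¹ • v t :=
      (hvc.norm.inv₀ fun t => norm_ne_zero_iff.2 (hv t)).smul hvc
    fun_prop
  have h2e : ‖e + e‖ = 2 := by
    rw [show e + e = (2 : ℝ) • e by module, norm_smul, he, Real.norm_ofNat, mul_one]
  have g0 : g 0 = 2 := by simp [g, v, he, h2e]
  have g1 : g 1 = -2 := by simp [g, v, he, h2e, ← sub_eq_add_neg]
  obtain ⟨t, ⟨ht0, ht1⟩, ht⟩ := intermediate_value_Icc' zero_le_one hgc.continuousOn
    (show (0 : ℝ) ∈ Set.Icc (g 1) (g 0) by rw [g0, g1]; norm_num)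
  have hs : Real.sin (π * t) ≠ 0 := by
    refine (Real.sin_pos_of_pos_of_lt_pi ?_ ?_).ne'
    · refine mul_pos Real.pi_pos (ht0.lt_of_ne ?_)
      rintro rfl
      rw [g0] at ht
      norm_num at ht
    · refine mul_lt_of_lt_one_right Real.pi_pos (ht1.lt_of_ne ?_)
      rintro rfl
      rw [g1] at ht
      norm_num at ht
  refine ⟨‖v t‖⁻¹ • v t, ⟨he, by simp [norm_smul, hv t], ?_⟩,
    -(Real.cos (π * t) / Real.sin (π * t)), ‖v t‖ / Real.sin (π * t), ?_⟩
  · simp only [g] at ht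
    linarith
  · have hn : ‖v t‖ ≠ 0 := norm_ne_zero_iff.2 (hv t)
    simp only [v] at hn ⊢
    match_scalars <;> field_simp
    ring

/-- The point at angle `θ` in the plane of `e` and `f`. -/
noncomputable def pt (e f : X) (θ : ℝ) : X := Real.cos θ • e + Real.sin θ • f

variable {e f : X}

lemma norm_pt_le (h : Orth e f) (θ : ℝ) : ‖pt e f θ‖ ≤ 2 := by
  refine (norm_add_le _ _).trans ?_
  rw [norm_smul, norm_smul, h.1, h.2.1, mul_one, mul_one, Real.norm_eq_abs, Real.norm_eq_abs]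
  linarith [Real.abs_cos_le_one θ, Real.abs_sin_le_one θ]

lemma pt_lipschitz (h : Orth e f) (θ φ : ℝ) : |‖pt e f θ‖ - ‖pt e f φ‖| ≤ 2 * |θ - φ| := by
  refine (abs_norm_sub_norm_le _ _).trans ?_
  rw [show pt e f θ - pt e f φ
    = (Real.cos θ - Real.cos φ) • e + (Real.sin θ - Real.sin φ) • f by unfold pt; module]
  refine (norm_add_le _ _).trans ?_
  rw [norm_smul, norm_smul, h.1, h.2.1, mul_one, mul_one, Real.norm_eq_abs, Real.norm_eq_abs]
  have h1 : |Real.cos θ - Real.cos φ| ≤ |θ - φ| := by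
    simpa [Real.dist_eq] using Real.lipschitzWith_cos.dist_le_mul θ φ
  have h2 : |Real.sin θ - Real.sin φ| ≤ |θ - φ| := by
    simpa [Real.dist_eq] using Real.lipschitzWith_sin.dist_le_mul θ φ
  linarith

lemma pt_add_pi (θ : ℝ) : pt e f (θ + π) = -pt e f θ := by
  simp [pt, Real.cos_add_pi, Real.sin_add_pi, add_comm]

lemma pt_add (m α : ℝ) :
    pt e f (m + α) + pt e f (m - α) = (2 * Real.cos α) • pt e f m ∧
    pt e f (m + α) - pt e f (m - α) = (2 * Real.sin α) • pt e f (m + π / 2) := by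
  simp only [pt, Real.cos_add, Real.sin_add, Real.cos_sub, Real.sin_sub, Real.cos_pi_div_two,
    Real.sin_pi_div_two]
  constructor <;> module

lemma rhombus_approx {ε c : ℝ} (hR : Rhombus X ε) (hε : 0 ≤ ε) {u v : X}
    (hu : |‖u‖ - 1| ≤ c) (hv : |‖v‖ - 1| ≤ c) (hu2 : ‖u‖ ≤ 2) (hv2 : ‖v‖ ≤ 2) :
    |‖u + v‖ ^ 2 + ‖u - v‖ ^ 2 - 4| ≤ ε + 80 * c := by
  have hc : 0 ≤ c := (abs_nonneg _).trans hu
  have s1 : ‖u + v‖ ≤ 4 := by linarith [norm_add_le u v]
  have s2 : ‖u - v‖ ≤ 4 := by linarith [norm_sub_le u v]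
  rcases lt_or_ge (1 / 2 : ℝ) c with hbig | hsmall
  · rw [abs_le]
    constructor <;> nlinarith [norm_nonneg (u + v), norm_nonneg (u - v)]
  have hu0 : 0 < ‖u‖ := by linarith [(abs_le.1 hu).1]
  have hv0 : 0 < ‖v‖ := by linarith [(abs_le.1 hv).1]
  set a := ‖u‖⁻¹ • u
  set b := ‖v‖⁻¹ • v
  have ha : ‖a‖ = 1 := by simp [a, norm_smul, hu0.ne']
  have hb : ‖b‖ = 1 := by simp [b, norm_smul, hv0.ne']
  have dist1 : ∀ w : X, 0 < ‖w‖ → ‖w - ‖w‖⁻¹ • w‖ = |‖w‖ - 1| := by
    intro w hw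
    rw [show w - ‖w‖⁻¹ • w = (1 - ‖w‖⁻¹) • w by module, norm_smul, Real.norm_eq_abs,
      ← abs_norm w, ← abs_mul, abs_norm, sub_mul, one_mul, inv_mul_cancel₀ hw.ne']
  have du : ‖u - a‖ ≤ c := (dist1 u hu0).trans_le hu
  have dv : ‖v - b‖ ≤ c := (dist1 v hv0).trans_le hv
  have d1 : |‖u + v‖ - ‖a + b‖| ≤ 2 * c := by
    refine (abs_norm_sub_norm_le _ _).trans ?_
    rw [add_sub_add_comm]
    linarith [norm_add_le (u - a) (v - b)]
  have d2 : |‖u - v‖ - ‖a - b‖| ≤ 2 * c := by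
    refine (abs_norm_sub_norm_le _ _).trans ?_
    rw [sub_sub_sub_comm]
    linarith [norm_sub_le (u - a) (v - b)]
  have t1 : ‖a + b‖ ≤ 2 := by linarith [norm_add_le a b]
  have t2 : ‖a - b‖ ≤ 2 := by linarith [norm_sub_le a b]
  have := hR a b ha hb
  rw [abs_le] at d1 d2 this ⊢
  constructor <;> nlinarith [norm_nonneg (u + v), norm_nonneg (u - v), norm_nonneg (a + b),
    norm_nonneg (a - b)]

lemma grid {ε : ℝ} (hR : Rhombus X ε) (hε : 0 ≤ ε) (h : Orth e f) (n : ℕ) :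
    ∀ k : ℤ, |‖pt e f (k * (π / 2 ^ (n + 2)))‖ - 1| ≤ 100 ^ (n + 1) * ε := by
  induction n with
  | zero =>
    intro k
    have key : ∀ θ, pt e f θ ∈ ({e, f, -e, -f} : Set X) ∨
        (‖pt e f θ‖ ^ 2 = ‖e + f‖ ^ 2 / 2) → |‖pt e f θ‖ - 1| ≤ 100 ^ (0 + 1) * ε := by
      rintro θ (hθ | hθ)
      · simp only [Set.mem_insert_iff, Set.mem_singleton_iff] at hθ
        rcases hθ with hθ | hθ | hθ | hθ <;> simp [hθ, h.1, h.2.1, hε]
      · have := hR e f h.1 h.2.1
        rw [← h.2.2] at this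
        rw [abs_le] at this ⊢
        norm_num
        have hsq : (‖pt e f θ‖ - 1) * (‖pt e f θ‖ + 1) = ‖pt e f θ‖ ^ 2 - 1 := by ring
        constructor <;> nlinarith [norm_nonneg (pt e f θ)]
    apply key
    rcases Int.even_or_odd k with ⟨j, rfl⟩ | ⟨j, rfl⟩
    · left
      have : ((j + j : ℤ) : ℝ) * (π / 2 ^ (0 + 2)) = j * (π / 2) := by push_cast; ring
      rw [this]
      simp only [Set.mem_insert_iff, Set.mem_singleton_iff]
      rcases Int.even_or_odd j with ⟨i, rfl⟩ | ⟨i, rfl⟩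
      · have : ((i + i : ℤ) : ℝ) * (π / 2) = i * π := by push_cast; ring
        rw [this, pt, Real.sin_int_mul_pi, Real.cos_int_mul_pi, zero_smul, add_zero]
        rw [neg_one_zpow_eq_ite]
        split <;> simp
      · have : ((2 * i + 1 : ℤ) : ℝ) * (π / 2) = π / 2 + i * π := by push_cast; ring
        rw [this, pt, Real.cos_add_int_mul_pi, Real.sin_add_int_mul_pi, Real.cos_pi_div_two,
          Real.sin_pi_div_two, mul_zero, zero_smul, zero_add, mul_one, neg_one_zpow_eq_ite]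
        split <;> simp
    · right
      set θ := ((2 * j + 1 : ℤ) : ℝ) * (π / 2 ^ (0 + 2))
      have hc : Real.cos θ ^ 2 = 1 / 2 := by
        rw [Real.cos_sq, show 2 * θ = π / 2 + j * π by simp [θ]; ring,
          Real.cos_add_int_mul_pi, Real.cos_pi_div_two]
        simp
      have hs : Real.sin θ ^ 2 = 1 / 2 := by linarith [Real.sin_sq_add_cos_sq θ]
      rcases sq_eq_sq_iff_eq_or_eq_neg.1 (hs.trans hc.symm) with hh | hh
      · rw [pt, hh, ← smul_add, norm_smul, mul_pow, Real.norm_eq_abs, sq_abs, hc]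
        ring
      · rw [pt, hh, neg_smul, ← sub_eq_add_neg, ← smul_sub, norm_smul, mul_pow,
          Real.norm_eq_abs, sq_abs, hc, ← h.2.2]
        ring
  | succ n ih =>
    intro k
    set c := 100 ^ (n + 1) * ε with hc
    have hc0 : 0 ≤ c := by positivity
    have hcε : ε ≤ c := le_mul_of_one_le_left hε (one_le_pow₀ (by norm_num))
    have hpow : (100 : ℝ) ^ (n + 1 + 1) * ε = 100 * c := by rw [hc, pow_succ]; ring
    rw [hpow]
    rcases Int.even_or_odd k with ⟨j, rfl⟩ | ⟨j, rfl⟩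
    · have : ((j + j : ℤ) : ℝ) * (π / 2 ^ (n + 1 + 2)) = j * (π / 2 ^ (n + 2)) := by
        push_cast; ring
      rw [this]
      linarith [ih j]
    set α := π / 2 ^ (n + 1 + 2) with hα
    set m := ((2 * j + 1 : ℤ) : ℝ) * α with hm
    have g1 : m - α = j * (π / 2 ^ (n + 2)) := by simp [hm, hα]; ring
    have g2 : m + α = (j + 1 : ℤ) * (π / 2 ^ (n + 2)) := by simp [hm, hα]; ring
    have g3 : m + π / 2 - α = (j + 2 ^ (n + 1) : ℤ) * (π / 2 ^ (n + 2)) := by
      simp [hm, hα]; field_simp; ring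
    have g4 : m + π / 2 + α = (j + 1 + 2 ^ (n + 1) : ℤ) * (π / 2 ^ (n + 2)) := by
      simp [hm, hα]; field_simp; ring
    have r1 := rhombus_approx hR hε (ih (j + 1)) (ih j) (norm_pt_le h _) (norm_pt_le h _)
    have r2 := rhombus_approx hR hε (ih (j + 1 + 2 ^ (n + 1))) (ih (j + 2 ^ (n + 1)))
      (norm_pt_le h _) (norm_pt_le h _)
    rw [← g1, ← g2, (pt_add m α).1, (pt_add m α).2, norm_smul, norm_smul, mul_pow, mul_pow,
      Real.norm_eq_abs, Real.norm_eq_abs, sq_abs, sq_abs] at r1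
    rw [← g3, ← g4, (pt_add (m + π / 2) α).1, (pt_add (m + π / 2) α).2,
      add_assoc m (π / 2) (π / 2), add_halves, pt_add_pi, norm_smul, norm_smul, mul_pow, mul_pow,
      Real.norm_eq_abs, Real.norm_eq_abs, sq_abs, sq_abs, norm_neg] at r2
    set A := ‖pt e f m‖
    set B := ‖pt e f (m + π / 2)‖
    have hgap : 7 / 10 ≤ Real.cos α ^ 2 - Real.sin α ^ 2 := by
      have hle : 2 * α ≤ π / 4 := by
        have h8 : (8 : ℝ) ≤ 2 ^ (n + 1 + 2) := by
          calc (8 : ℝ) = 2 ^ 3 := by norm_num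
            _ ≤ _ := pow_le_pow_right₀ (by norm_num) (by omega)
        rw [hα, mul_div_assoc', div_le_div_iff₀ (by positivity) (by norm_num)]
        nlinarith [Real.pi_pos]
      have := Real.cos_le_cos_of_nonneg_of_le_pi (by positivity : 0 ≤ 2 * α)
        (by linarith [Real.pi_pos]) hle
      rw [Real.cos_pi_div_four, Real.cos_two_mul'] at this
      nlinarith [Real.sq_sqrt (show (0:ℝ) ≤ 2 by norm_num), Real.sqrt_nonneg 2]
    have hsum := Real.sin_sq_add_cos_sq α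
    set C := Real.cos α ^ 2
    set S := Real.sin α ^ 2
    have e1 : |C * (A ^ 2 - 1) + S * (B ^ 2 - 1)| ≤ (ε + 80 * c) / 4 := by
      rw [abs_le] at r1 ⊢
      constructor <;> nlinarith
    have e2 : |C * (B ^ 2 - 1) + S * (A ^ 2 - 1)| ≤ (ε + 80 * c) / 4 := by
      rw [abs_le] at r2 ⊢
      constructor <;> nlinarith
    have hAB : |A ^ 2 - B ^ 2| ≤ (ε + 80 * c) := by
      have : (C - S) * |A ^ 2 - B ^ 2| ≤ (ε + 80 * c) / 2 := by
        rw [← abs_of_nonneg (show 0 ≤ C - S by linarith), ← abs_mul, abs_le]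
        rw [abs_le] at e1 e2
        constructor <;> linarith
      have := mul_le_mul_of_nonneg_right hgap (abs_nonneg (A ^ 2 - B ^ 2))
      linarith
    have hA : |A ^ 2 - 1| ≤ 81 * c := by
      have hid : A ^ 2 - 1 = C * (A ^ 2 - 1) + S * (B ^ 2 - 1) + S * (A ^ 2 - B ^ 2) := by
        linear_combination (-(A ^ 2 - 1)) * hsum
      have hS0 : 0 ≤ S := sq_nonneg _
      have hS1 : S * |A ^ 2 - B ^ 2| ≤ (ε + 80 * c) / 2 := by
        have := mul_le_mul_of_nonneg_left hAB hS0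
        have : S * (ε + 80 * c) ≤ 1 / 2 * (ε + 80 * c) :=
          mul_le_mul_of_nonneg_right (by linarith) (by linarith)
        linarith
      rw [hid]
      refine (abs_add_le _ _).trans ?_
      rw [abs_mul, abs_of_nonneg hS0]
      linarith
    have hA0 : 0 ≤ A := norm_nonneg _
    rw [abs_le] at hA ⊢
    constructor <;> nlinarith

theorem exists_rhombus_bound (η : ℝ) (hη : 0 < η) :
    ∃ ε : ℝ, 0 < ε ∧ ∀ (X : Type*) [NormedAddCommGroup X] [NormedSpace ℝ X], Rhombus X ε →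
      ∀ e f : X, Orth e f → ∀ a b : ℝ,
        |‖a • e + b • f‖ ^ 2 - (a ^ 2 + b ^ 2)| ≤ η * (a ^ 2 + b ^ 2) := by
  set η' := min η 1 / 4 with hη'
  have hη'0 : 0 < η' := by positivity
  obtain ⟨n, hn⟩ := exists_pow_lt_of_lt_one (div_pos hη'0 (mul_pos two_pos Real.two_pi_pos))
    (by norm_num : (1 : ℝ) / 2 < 1)
  refine ⟨η' / 2 / 100 ^ (n + 1), by positivity, fun X _ _ hR e f h a b => ?_⟩
  have hpi := Real.pi_pos
  have hpt : ∀ θ, |‖pt e f θ‖ ^ 2 - 1| ≤ η := by
    intro θ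
    set d := π / 2 ^ (n + 2) with hd
    have hd0 : 0 < d := by positivity
    have hdle : 2 * d ≤ η' / 2 := by
      have h12 : ((1 : ℝ) / 2) ^ n * (2 * (2 * π)) < η' := (lt_div_iff₀ (by positivity)).1 hn
      have : d = ((1 : ℝ) / 2) ^ n * π / 4 := by
        rw [hd, div_pow, one_pow, pow_add]; ring
      rw [this]
      nlinarith [pow_pos (by norm_num : (0:ℝ) < 1 / 2) n]
    have hk : |θ - ⌊θ / d⌋ * d| ≤ d := by
      have h1 := Int.floor_le (θ / d)
      have h2 := Int.lt_floor_add_one (θ / d)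
      rw [le_div_iff₀ hd0] at h1
      rw [div_lt_iff₀ hd0] at h2
      rw [abs_le]
      constructor <;> nlinarith
    have hg := grid hR (by positivity) h n ⌊θ / d⌋
    rw [← hd, mul_div_cancel₀ _ (by positivity : (100 : ℝ) ^ (n + 1) ≠ 0)] at hg
    have hl := pt_lipschitz h θ (⌊θ / d⌋ * d)
    have hb : |‖pt e f θ‖ - 1| ≤ η' := by
      rw [abs_le] at hg hl ⊢
      constructor <;> nlinarith
    have h1 : η' * 3 ≤ η := by
      rw [hη']; linarith [min_le_left η 1]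
    have h2 : η' ≤ 1 / 4 := by
      rw [hη']; linarith [min_le_right η 1]
    rw [abs_le] at hb ⊢
    constructor <;> nlinarith [norm_nonneg (pt e f θ)]
  set z : ℂ := ⟨a, b⟩
  have hab : a • e + b • f = ‖z‖ • pt e f z.arg := by
    rw [pt, smul_add, smul_smul, smul_smul, Complex.norm_mul_cos_arg, Complex.norm_mul_sin_arg]
  have hz : ‖z‖ ^ 2 = a ^ 2 + b ^ 2 := by
    rw [Complex.sq_norm, Complex.normSq_apply]; ring
  rw [hab, norm_smul, mul_pow, Real.norm_eq_abs, sq_abs, ← hz, mul_comm η,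
    ← mul_sub_one, abs_mul, abs_of_nonneg (sq_nonneg ‖z‖)]
  exact mul_le_mul_of_nonneg_left (hpt _) (sq_nonneg _)

lemma lin_case {η η' r s c d U V A₁ A₂ B₁ B₂ : ℝ} (hη'0 : 0 < η') (hη'η : 16 * η' ≤ η)
    (hη'1 : η' ≤ 1 / 2) (hU0 : 0 ≤ U) (hV0 : 0 ≤ V)
    (p1 : |A₁ - ((r * s + c) ^ 2 + d ^ 2)| ≤ η' * ((r * s + c) ^ 2 + d ^ 2))
    (p2 : |A₂ - ((r * s - c) ^ 2 + (-d) ^ 2)| ≤ η' * ((r * s - c) ^ 2 + (-d) ^ 2))
    (q1 : |B₁ - ((s + c) ^ 2 + d ^ 2)| ≤ η' * ((s + c) ^ 2 + d ^ 2))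
    (q2 : |B₂ - ((s - c) ^ 2 + (-d) ^ 2)| ≤ η' * ((s - c) ^ 2 + (-d) ^ 2))
    (p3 : |U - (s ^ 2 + 0 ^ 2)| ≤ η' * (s ^ 2 + 0 ^ 2))
    (p4 : |V - (c ^ 2 + d ^ 2)| ≤ η' * (c ^ 2 + d ^ 2)) :
    |(A₁ - A₂) / 4 - r * ((B₁ - B₂) / 4)| ≤ η * (1 + r ^ 2) * (U + V) := by
  have hU : s ^ 2 ≤ 2 * U := by
    have := mul_le_mul_of_nonneg_right hη'1 (sq_nonneg s)
    rw [abs_le] at p3
    linarith
  have hV : c ^ 2 + d ^ 2 ≤ 2 * V := by
    have := mul_le_mul_of_nonneg_right hη'1 (add_nonneg (sq_nonneg c) (sq_nonneg d))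
    rw [abs_le] at p4
    linarith
  set E := c ^ 2 + d ^ 2 with hE
  have bA : |(A₁ - A₂) / 4 - r * s * c| ≤ η' * ((r * s) ^ 2 + E) / 2 := by
    rw [abs_le] at p1 p2 ⊢
    constructor <;> linarith
  have bB : |r * ((B₁ - B₂) / 4) - r * s * c| ≤ |r| * (η' * (s ^ 2 + E) / 2) := by
    rw [mul_assoc r s c, ← mul_sub, abs_mul]
    refine mul_le_mul_of_nonneg_left ?_ (abs_nonneg _)
    rw [abs_le] at q1 q2 ⊢
    constructor <;> linarith
  have hE0 : 0 ≤ E := add_nonneg (sq_nonneg c) (sq_nonneg d)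
  have hr : |r| ≤ 1 + r ^ 2 := by nlinarith [sq_abs r, sq_nonneg (|r| - 1), abs_nonneg r]
  have h1 : |r| * (η' * (s ^ 2 + E) / 2) ≤ (1 + r ^ 2) * (η' * (s ^ 2 + E) / 2) := by
    gcongr
  have h2 := mul_nonneg hη'0.le (mul_nonneg (sq_nonneg r) hE0)
  have h2' := mul_nonneg hη'0.le (sq_nonneg s)
  have h3 : η' * (s ^ 2 + E) ≤ η * (U + V) := by
    have := mul_le_mul_of_nonneg_left (add_le_add hU hV) hη'0.le
    have := mul_le_mul_of_nonneg_right hη'η (add_nonneg hU0 hV0)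
    have := mul_nonneg hη'0.le (add_nonneg hU0 hV0)
    linarith
  have h4 := mul_le_mul_of_nonneg_left h3 (show (0 : ℝ) ≤ 1 + r ^ 2 by positivity)
  have h5 : η' * ((r * s) ^ 2 + E) / 2 ≤ (1 + r ^ 2) * (η' * (s ^ 2 + E) / 2) := by
    linarith
  rw [abs_le] at bA bB ⊢
  constructor <;> linarith

theorem exists_isNear (η : ℝ) (hη : 0 < η) :
    ∃ ε : ℝ, 0 < ε ∧ ∀ (X : Type*) [NormedAddCommGroup X] [NormedSpace ℝ X], Rhombus X ε →
      IsNear X η := by
  set η' := min η 1 / 16 with hη'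
  have hη'0 : 0 < η' := by positivity
  have hη'η : 16 * η' ≤ η := by rw [hη']; linarith [min_le_left η 1]
  have hη'1 : η' ≤ 1 / 2 := by rw [hη']; linarith [min_le_right η 1]
  obtain ⟨ε, hε, H⟩ := exists_rhombus_bound η' hη'0
  refine ⟨ε, hε, fun X _ _ hR => ?_⟩
  have P := H X hR
  have coords : ∀ u v : X, (∃ e : X, ∃ s t : ℝ, ‖e‖ = 1 ∧ u = s • e ∧ v = t • e) ∨ (u = 0) ∨
      ∃ e f : X, Orth e f ∧ ∃ s c d : ℝ, u = s • e ∧ v = c • e + d • f := by
    intro u v
    rcases eq_or_ne u 0 with hu | hu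
    · exact Or.inr (Or.inl hu)
    have he : ‖‖u‖⁻¹ • u‖ = 1 := by simp [norm_smul, hu]
    have hue : u = ‖u‖ • ‖u‖⁻¹ • u := (smul_inv_smul₀ (norm_ne_zero_iff.2 hu) u).symm
    by_cases hv : ∃ t : ℝ, v = t • ‖u‖⁻¹ • u
    · obtain ⟨t, ht⟩ := hv
      exact Or.inl ⟨_, _, t, he, hue, ht⟩
    · simp only [not_exists] at hv
      obtain ⟨f, hf, c, d, hcd⟩ := exists_orth he hv
      exact Or.inr (Or.inr ⟨_, f, hf, _, c, d, hue, hcd⟩)
  constructor
  · intro u v
    rcases coords u v with ⟨e, s, t, he, rfl, rfl⟩ | rfl | ⟨e, f, hef, s, c, d, rfl, rfl⟩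
    · rw [← add_smul, ← sub_smul, norm_smul, norm_smul, norm_smul, norm_smul, he]
      simp only [mul_one, Real.norm_eq_abs, sq_abs]
      ring_nf
      simp only [abs_zero]
      positivity
    · simp only [zero_add, zero_sub, norm_neg, norm_zero]
      ring_nf
      simp only [abs_zero]
      positivity
    · have p1 := P e f hef (s + c) d
      have p2 := P e f hef (s - c) (-d)
      have p3 := P e f hef s 0
      have p4 := P e f hef c d
      rw [show (s + c) • e + d • f = s • e + (c • e + d • f) by module] at p1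
      rw [show (s - c) • e + (-d) • f = s • e - (c • e + d • f) by module] at p2
      rw [zero_smul, add_zero] at p3
      rw [abs_le] at p1 p2 p3 p4 ⊢
      set U := ‖s • e‖ ^ 2
      set V := ‖c • e + d • f‖ ^ 2
      have hU : s ^ 2 ≤ 2 * U := by nlinarith [sq_nonneg s]
      have hV : c ^ 2 + d ^ 2 ≤ 2 * V := by nlinarith [sq_nonneg c, sq_nonneg d]
      have hU' := mul_le_mul_of_nonneg_left hU hη'0.le
      have hV' := mul_le_mul_of_nonneg_left hV hη'0.le
      have hU0 : 0 ≤ U := sq_nonneg _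
      have hV0 : 0 ≤ V := sq_nonneg _
      have hU'' := mul_le_mul_of_nonneg_right hη'η hU0
      have hV'' := mul_le_mul_of_nonneg_right hη'η hV0
      have := mul_nonneg hη'0.le hU0
      have := mul_nonneg hη'0.le hV0
      constructor <;> linarith
  · intro r u v
    rcases coords u v with ⟨e, s, t, he, rfl, rfl⟩ | rfl | ⟨e, f, hef, s, c, d, rfl, rfl⟩
    · simp only [br, smul_smul, ← add_smul, ← sub_smul, norm_smul, he, mul_one, Real.norm_eq_abs,
        sq_abs]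
      ring_nf
      simp only [abs_zero]
      positivity
    · simp only [br, smul_zero, zero_add, zero_sub, norm_neg, sub_self, zero_div, mul_zero,
        abs_zero]
      positivity
    · have p1 := P e f hef (r * s + c) d
      have p2 := P e f hef (r * s - c) (-d)
      have q1 := P e f hef (s + c) d
      have q2 := P e f hef (s - c) (-d)
      have p3 := P e f hef s 0
      have p4 := P e f hef c d
      rw [show (r * s + c) • e + d • f = r • s • e + (c • e + d • f) by module] at p1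
      rw [show (r * s - c) • e + (-d) • f = r • s • e - (c • e + d • f) by module] at p2
      rw [show (s + c) • e + d • f = s • e + (c • e + d • f) by module] at q1
      rw [show (s - c) • e + (-d) • f = s • e - (c • e + d • f) by module] at q2
      rw [zero_smul, add_zero] at p3
      unfold br
      exact lin_case hη'0 hη'η hη'1 (sq_nonneg _) (sq_nonneg _) p1 p2 q1 q2 p3 p4
  · intro e f he hf hef a b
    refine (P e f ⟨he, hf, hef⟩ a b).trans ?_
    gcongr
    linarith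

end Vale.Agent.P084.Near
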